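import Vale.Agent.P199.K.Defs

/-!
P199: the zero ideal is good; its numerator is one.
-/

namespace Vale.Agent.P199.K.Bot

open MvPolynomial
open scoped BigOperators

variable {σ ι : Type} [Fintype σ] (w : σ → ι →₀ ℕ)

/-- Monomials of a degree without the variables in `s`. -/
def expo (s : Finset σ) (d : ι →₀ ℕ) : Set (σ →₀ ℕ) :=
  {m | Finsupp.weight w m = d ∧ ∀ v ∈ s, m v = 0}

/-- Their counting series. -/
noncomputable def cnt (s : Finset σ) : MvPowerSeries ι ℤ :=
  fun d => ((expo w s d).ncard : ℤ)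

theorem expo_finite (hw : ∀ v, w v ≠ 0) (s : Finset σ) (d : ι →₀ ℕ) : (expo w s d).Finite := by
  refine (Set.Finite.subset ?_ (fun m hm => hm.1) : (expo w s d).Finite)
  classical
  refine ((Set.Finite.pi' fun _ : σ => Set.finite_Iic (∑ i ∈ d.support, d i)).preimage
    (DFunLike.coe_injective.injOn)).subset ?_
  intro m hm v
  obtain ⟨i, hi⟩ := Finsupp.ne_iff.1 (hw v)
  simp only [Finsupp.coe_zero, Pi.zero_apply] at hi
  have h1 : m v * w v i ≤ d i := by
    rw [← show Finsupp.weight w m = d from hm, Finsupp.weight_apply, Finsupp.sum,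
      Finsupp.finsetSum_apply]
    by_cases hv : v ∈ m.support
    · rw [show m v * w v i = (m v • w v) i by simp]
      exact Finset.single_le_sum (f := fun a => (m a • w a) i) (fun a _ => Nat.zero_le _) hv
    · rw [Finsupp.notMem_support_iff.1 hv]; simp
  have h2 : m v ≤ d i := le_trans (Nat.le_mul_of_pos_right _ (Nat.pos_of_ne_zero hi)) h1
  refine h2.trans ?_
  by_cases h : i ∈ d.support
  · exact Finset.single_le_sum (f := fun j => d j) (fun j _ => Nat.zero_le _) h
  · rw [Finsupp.notMem_support_iff.1 h]; exact Nat.zero_le _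

theorem cnt_step [DecidableEq σ] (hw : ∀ v, w v ≠ 0) (s : Finset σ) (v : σ) (hv : v ∉ s) :
    cnt w s * (1 - MvPowerSeries.monomial (w v) 1) = cnt w (insert v s) := by
  classical
  refine MvPowerSeries.ext fun d => ?_
  rw [mul_comm, sub_mul, one_mul, map_sub, MvPowerSeries.coeff_monomial_mul, one_mul]
  show ((expo w s d).ncard : ℤ) - _ = ((expo w (insert v s) d).ncard : ℤ)
  have hsplit : expo w s d = expo w (insert v s) d ∪ {m ∈ expo w s d | m v ≠ 0} := by
    ext m
    simp only [expo, Set.mem_union, Set.mem_ofPred_eq, Finset.mem_insert]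
    constructor
    · rintro ⟨h1, h2⟩
      by_cases h : m v = 0
      · exact Or.inl ⟨h1, by rintro u (rfl | hu); exacts [h, h2 u hu]⟩
      · exact Or.inr ⟨⟨h1, h2⟩, h⟩
    · rintro (⟨h1, h2⟩ | ⟨h, -⟩)
      · exact ⟨h1, fun u hu => h2 u (Or.inr hu)⟩
      · exact h
  have hdisj : Disjoint (expo w (insert v s) d) {m ∈ expo w s d | m v ≠ 0} :=
    Set.disjoint_left.2 fun m hm hm' => hm'.2 (hm.2 v (Finset.mem_insert_self _ _))
  have hfin := expo_finite w hw
  rw [hsplit, Set.ncard_union_eq hdisj (hfin _ _) ((hfin s d).subset fun m hm => hm.1)]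
  split_ifs with hle
  · have himg : {m ∈ expo w s d | m v ≠ 0} =
        (fun m => m + Finsupp.single v 1) '' expo w s (d - w v) := by
      ext m
      simp only [expo, Set.mem_ofPred_eq, Set.mem_image]
      constructor
      · rintro ⟨⟨h1, h2⟩, h3⟩
        have hm : m - Finsupp.single v 1 + Finsupp.single v 1 = m := by
          refine tsub_add_cancel_of_le ?_
          intro u
          by_cases hu : u = v
          · subst hu; simp; omega
          · simp [Ne.symm hu]
        refine ⟨m - Finsupp.single v 1, ⟨?_, fun u hu => by simp [h2 u hu]⟩, hm⟩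
        conv_rhs => rw [← h1, ← hm, map_add, Finsupp.weight_single, one_smul]
        exact (add_tsub_cancel_right _ _).symm
      · rintro ⟨m, ⟨h1, h2⟩, rfl⟩
        refine ⟨⟨?_, fun u hu => ?_⟩, by simp⟩
        · rw [map_add, Finsupp.weight_single, one_smul, h1, tsub_add_cancel_of_le hle]
        · rw [Finsupp.add_apply, h2 u hu, Finsupp.single_eq_of_ne (by rintro rfl; exact hv hu),
            add_zero]
    rw [himg, Set.ncard_image_of_injective _ (add_left_injective _)]
    show _ - ((expo w s (d - w v)).ncard : ℤ) = _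
    push_cast
    ring
  · have hempty : {m ∈ expo w s d | m v ≠ 0} = ∅ := by
      refine Set.eq_empty_of_forall_notMem fun m hm => hle ?_
      rw [← hm.1.1]
      exact Finsupp.le_weight_of_ne_zero (fun _ => zero_le) hm.2
    rw [hempty]
    simp

theorem cnt_univ : cnt w (Finset.univ : Finset σ) = 1 := by
  classical
  refine MvPowerSeries.ext fun d => ?_
  show ((expo w Finset.univ d).ncard : ℤ) = _
  rw [MvPowerSeries.coeff_one]
  split_ifs with h
  · subst h
    rw [show expo w Finset.univ (0 : ι →₀ ℕ) = {0} from ?_]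
    · simp
    · ext m
      simp only [expo, Set.mem_ofPred_eq, Set.mem_singleton_iff]
      exact ⟨fun hm => Finsupp.ext fun v => hm.2 v (Finset.mem_univ v), fun hm => by simp [hm]⟩
  · rw [show expo w Finset.univ d = ∅ from ?_]
    · simp
    · refine Set.eq_empty_of_forall_notMem fun m hm => h ?_
      rw [← hm.1, show m = 0 from Finsupp.ext fun v => hm.2 v (Finset.mem_univ v), map_zero]

theorem cnt_empty (hw : ∀ v, w v ≠ 0) : cnt w (∅ : Finset σ) = ser w (⊥ : Ideal (MvPolynomial σ ℂ)) := by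
  refine MvPowerSeries.ext fun d => ?_
  show ((expo w ∅ d).ncard : ℤ) = (hilb w ⊥ d : ℤ)
  have hbot : ((⊥ : Ideal (MvPolynomial σ ℂ)).restrictScalars ℂ).comap
      (weightedHomogeneousSubmodule ℂ w d).subtype = ⊥ := by
    rw [Submodule.restrictScalars_bot, Submodule.comap_bot, Submodule.ker_subtype]
  have hf : {m : σ →₀ ℕ | Finsupp.weight w m = d}.Finite := by
    simpa [expo] using expo_finite w hw ∅ d
  haveI := hf.fintype
  have hcard : Module.finrank ℂ (restrictSupport ℂ {m : σ →₀ ℕ | Finsupp.weight w m = d}) =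
      (expo w ∅ d).ncard := by
    rw [Module.finrank_eq_nat_card_basis (basisRestrictSupport ℂ _), Nat.card_coe_set_eq]
    simp [expo]
  rw [hilb, LinearEquiv.finrank_eq (Submodule.quotEquivOfEqBot _ hbot),
    weightedHomogeneousSubmodule_eq_finsupp_supported]
  exact congrArg Nat.cast hcard.symm

theorem isK_bot (hw : ∀ v, w v ≠ 0) : IsK w (⊥ : Ideal (MvPolynomial σ ℂ)) 1 := by
  classical
  have key : ∀ s : Finset σ,
      cnt w ∅ * ∏ v ∈ s, (1 - MvPowerSeries.monomial (w v) (1 : ℤ)) = cnt w s := by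
    intro s
    induction s using Finset.induction_on with
    | empty => simp
    | insert v s hv ih =>
      rw [Finset.prod_insert hv, mul_comm _ (∏ _ ∈ _, _), ← mul_assoc, ih, cnt_step w hw s v hv]
  have hden : (den w : MvPowerSeries ι ℤ) =
      ∏ v, (1 - MvPowerSeries.monomial (w v) (1 : ℤ)) := by
    rw [← MvPolynomial.coeToMvPowerSeries.ringHom_apply, den, map_prod]
    exact Finset.prod_congr rfl fun v _ => by
      rw [map_sub, map_one, MvPolynomial.coeToMvPowerSeries.ringHom_apply, coe_monomial]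
  show ((1 : MvPolynomial ι ℤ) : MvPowerSeries ι ℤ) = _
  rw [MvPolynomial.coe_one, ← cnt_empty w hw, hden, key, cnt_univ]

theorem kpoly_bot (hw : ∀ v, w v ≠ 0) : kpoly w (⊥ : Ideal (MvPolynomial σ ℂ)) = 1 := by
  classical
  have h := isK_bot w hw
  rw [kpoly, dif_pos ⟨1, h⟩]
  exact MvPolynomial.coe_injective _ _ (Eq.trans (Exists.choose_spec (⟨1, h⟩ : ∃ K, IsK w ⊥ K)) h.symm)

theorem codim_bot : codim (⊥ : Ideal (MvPolynomial σ ℂ)) = 0 := by
  rw [codim, (AlgEquiv.quotientBot ℂ (MvPolynomial σ ℂ)).trdeg_eq, MvPolynomial.trdeg_of_isDomain]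
  simp

theorem cls_bot (hw : ∀ v, w v ≠ 0) (p : ℕ) : cls w p (⊥ : Ideal (MvPolynomial σ ℂ)) = 1 := by
  rw [cls, lowZ, codim_bot, kshift, kpoly_bot w hw, map_one, homogeneousComponent_zero]
  simp

/-- The zero ideal is good. -/
theorem good_bot (hw : ∀ v, w v ≠ 0) (p : ℕ) [Fact p.Prime] :
    Good w p (⊥ : Ideal (MvPolynomial σ ℂ)) := by
  refine ⟨Ideal.isPrime_bot, fun f hf d => ?_, by rw [cls_bot w hw]; exact one_ne_zero⟩
  rw [Ideal.mem_bot] at hf ⊢
  rw [hf, map_zero]

end Vale.Agent.P199.K.Bot
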