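import Vale.Agent.P199.K.Defs

/-!
P199: elementary facts on weighted gradings by `ι →₀ ℕ`: finite pieces, homogeneous ideals.
-/

namespace Vale.Agent.P199.K.Gr

open MvPolynomial
open scoped BigOperators

variable {σ τ ι : Type} (w : σ → ι →₀ ℕ)

theorem weight_ge (m : σ →₀ ℕ) (v : σ) (i : ι) : m v * w v i ≤ Finsupp.weight w m i := by
  classical
  by_cases hv : v ∈ m.support
  · rw [Finsupp.weight_apply, Finsupp.sum, Finsupp.finsetSum_apply]
    have : m v * w v i = (m v • w v) i := by simp
    rw [this]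
    exact Finset.single_le_sum (f := fun a => (m a • w a) i) (fun a _ => Nat.zero_le _) hv
  · rw [Finsupp.notMem_support_iff.1 hv]; simp

theorem finite_weight_eq [Fintype σ] (hw : ∀ v, w v ≠ 0) (d : ι →₀ ℕ) :
    {m : σ →₀ ℕ | Finsupp.weight w m = d}.Finite := by
  classical
  refine ((Set.Finite.pi' fun _ : σ => Set.finite_Iic (∑ i ∈ d.support, d i)).preimage
    (DFunLike.coe_injective.injOn)).subset ?_
  intro m hm v
  obtain ⟨i, hi⟩ := Finsupp.ne_iff.1 (hw v)
  simp only [Finsupp.coe_zero, Pi.zero_apply] at hi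
  have h1 := weight_ge w m v i
  rw [show Finsupp.weight w m = d from hm] at h1
  have h2 : m v ≤ d i := le_trans (Nat.le_mul_of_pos_right _ (Nat.pos_of_ne_zero hi)) h1
  refine h2.trans ?_
  by_cases h : i ∈ d.support
  · exact Finset.single_le_sum (f := fun j => d j) (fun j _ => Nat.zero_le _) h
  · rw [Finsupp.notMem_support_iff.1 h]; exact Nat.zero_le _

theorem finite_piece [Fintype σ] (hw : ∀ v, w v ≠ 0) (d : ι →₀ ℕ) :
    Module.Finite ℂ (weightedHomogeneousSubmodule ℂ w d) := by
  rw [weightedHomogeneousSubmodule_eq_finsupp_supported]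
  have := (finite_weight_eq w hw d).to_subtype
  exact Module.Finite.of_basis (basisRestrictSupport ℂ {m | Finsupp.weight w m = d})

theorem rename_hom {W : τ → ι →₀ ℕ} (f : σ → τ) (hf : ∀ v, W (f v) = w v)
    {φ : MvPolynomial σ ℂ} {d : ι →₀ ℕ} (hφ : IsWeightedHomogeneous w φ d) :
    IsWeightedHomogeneous W (rename f φ) d := by
  induction hφ using IsWeightedHomogeneous.induction_on with
  | zero => simpa using isWeightedHomogeneous_zero ℂ W _
  | add p q _ _ hp hq => rw [map_add]; exact hp.add hq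
  | monomial m r hm =>
    rw [rename_monomial]
    refine isWeightedHomogeneous_monomial _ _ _ ?_
    rw [← hm, Finsupp.weight_apply, Finsupp.weight_apply,
      Finsupp.sum_mapDomain_index (by simp) (by simp [add_smul])]
    simp [hf]

theorem eq_span {P : Ideal (MvPolynomial σ ℂ)} [Fintype σ] (hP : IsHom w P) :
    P = Ideal.span {f | f ∈ P ∧ ∃ d, IsWeightedHomogeneous w f d} := by
  refine le_antisymm (fun f hf => ?_) (Ideal.span_le.2 fun f hf => hf.1)
  rw [← sum_weightedHomogeneousComponent w f]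
  refine finsum_mem_ideal _ fun d => Ideal.subset_span ⟨hP f hf d, d, ?_⟩
  exact weightedHomogeneousComponent_isWeightedHomogeneous d f
where
  finsum_mem_ideal (J : Ideal (MvPolynomial σ ℂ)) {g : (ι →₀ ℕ) → MvPolynomial σ ℂ}
      (h : ∀ d, g d ∈ J) : ∑ᶠ d, g d ∈ J :=
    finsum_induction (fun x => x ∈ J) J.zero_mem (fun _ _ => J.add_mem) h

theorem isHom_span {s : Set (MvPolynomial σ ℂ)}
    (h : ∀ f ∈ s, ∃ d, IsWeightedHomogeneous w f d) : IsHom w (Ideal.span s) := by
  classical
  letI := weightedGradedAlgebra ℂ w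
  have hh : (Ideal.span s).IsHomogeneous (weightedHomogeneousSubmodule ℂ w) :=
    Ideal.homogeneous_span _ _ fun f hf => h f hf
  exact fun f hf d => weightedHomogeneousComponent_mem_of_mem ℂ w hh hf d

end Vale.Agent.P199.K.Gr
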