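import Mathlib

/-!
P199: upper bounds for transcendence degrees, used by the product of good primes and by the model.
-/

namespace Vale.Agent.P199.K.Trdeg

open Algebra AlgebraicIndependent Cardinal

variable {A A' B : Type} [CommRing A] [Algebra ℂ A] [CommRing A'] [Algebra ℂ A']
  [CommRing B] [IsDomain B] [Algebra ℂ B]

/-- An injective image inside the algebraic closure of `n` elements has degree at most `n`. -/
theorem trdeg_le_of_algebraic (f : A →ₐ[ℂ] B) (hf : Function.Injective f) (Z : Finset B)
    (h : ∀ a, IsAlgebraic (adjoin ℂ (Z : Set B)) (f a)) :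
    trdeg ℂ A ≤ (Z.card : ℕ) := by
  refine ciSup_le' fun x => ?_
  obtain ⟨x, hx⟩ := x
  have hy : (matroid ℂ B).Indep (f '' x) := by
    rw [matroid_indep_iff]
    exact AlgebraicIndependent.image (hx.map' hf)
  have hsub : f '' x ⊆ (matroid ℂ B).closure (Z : Set B) := by
    rintro _ ⟨a, -, rfl⟩
    rw [matroid_closure_eq]
    exact h a
  have h1 := hy.encard_le_eRk_of_subset hsub
  rw [Matroid.eRk_closure_eq] at h1
  have h2 : (f '' x).encard ≤ Z.card := by
    refine h1.trans ((Matroid.eRk_le_encard _ _).trans ?_)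
    rw [Set.encard_coe_eq_coe_finsetCard]
  rw [hf.injOn.encard_image] at h2
  have hfin : x.Finite := Set.finite_of_encard_le_coe h2
  rw [← hfin.cast_ncard_eq, Nat.cast_le] at h2
  calc Cardinal.mk x = (x.ncard : Cardinal) := by
        exact (Set.cast_ncard hfin).symm
    _ ≤ (Z.card : ℕ) := by exact_mod_cast h2

/-- A domain generated by the images of two algebras has at most the sum of their degrees. -/
theorem trdeg_le_add (g : A →ₐ[ℂ] B) (g' : A' →ₐ[ℂ] B)
    (hgen : adjoin ℂ (Set.range g ∪ Set.range g') = ⊤) {a a' : ℕ}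
    (ha : trdeg ℂ A ≤ a) (ha' : trdeg ℂ A' ≤ a') : trdeg ℂ B ≤ (a + a' : ℕ) := by
  classical
  have key : ∀ {C : Type} [CommRing C] [Algebra ℂ C] (k : C →ₐ[ℂ] B) {c : ℕ}, trdeg ℂ C ≤ c →
      ∃ Z : Finset B, Z.card ≤ c ∧ Set.range k ⊆ (matroid ℂ B).closure (Z : Set B) := by
    intro C _ _ k c hc
    obtain ⟨I, hI⟩ := (matroid ℂ B).exists_isBasis (Set.range k) (by simp)
    have hind : AlgebraicIndependent ℂ (Subtype.val : I → B) := hI.indep
    choose pre hpre using fun i : I => hI.subset i.2
    have hp : AlgebraicIndependent ℂ pre :=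
      AlgebraicIndependent.of_comp k (by convert hind using 1; exact funext hpre)
    have h3 : Cardinal.mk I ≤ (c : Cardinal) := hp.cardinalMk_le_trdeg.trans hc
    have hfin : I.Finite :=
      Cardinal.lt_aleph0_iff_set_finite.1 (h3.trans_lt Cardinal.natCast_lt_aleph0)
    refine ⟨hfin.toFinset, ?_, ?_⟩
    · rw [← Set.ncard_eq_toFinset_card I hfin, ← Nat.cast_le (α := Cardinal),
        Set.cast_ncard hfin]
      exact h3
    · rw [hfin.coe_toFinset]
      exact hI.subset_closure
  obtain ⟨Z, hZ, hsub⟩ := key g ha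
  obtain ⟨Z', hZ', hsub'⟩ := key g' ha'
  have htop : ∀ b : B, IsAlgebraic (adjoin ℂ ((Z ∪ Z' : Finset B) : Set B)) b := by
    set S := (Subalgebra.algebraicClosure (adjoin ℂ ((Z ∪ Z' : Finset B) : Set B)) B).restrictScalars ℂ
      with hS
    suffices S = ⊤ by
      intro b
      have hb : b ∈ S := by rw [this]; trivial
      exact hb
    refine top_unique (hgen ▸ adjoin_le ?_)
    have hmono : ∀ T : Finset B, T ⊆ Z ∪ Z' →
        (matroid ℂ B).closure (T : Set B) ⊆ (S : Set B) := by
      intro T hT
      refine ((matroid ℂ B).closure_subset_closure (Finset.coe_subset.2 hT)).trans ?_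
      rw [matroid_closure_eq]
      intro b hb
      exact hb
    exact Set.union_subset (hsub.trans (hmono Z Finset.subset_union_left))
      (hsub'.trans (hmono Z' Finset.subset_union_right))
  calc trdeg ℂ B ≤ ((Z ∪ Z').card : ℕ) :=
        trdeg_le_of_algebraic (AlgHom.id ℂ B) Function.injective_id _ htop
    _ ≤ (a + a' : ℕ) := by
      exact_mod_cast (Finset.card_union_le Z Z').trans (add_le_add hZ hZ')

/-- A finitely generated algebra has degree at most the number of generators. -/
theorem trdeg_quotient_le {σ : Type} [Fintype σ] (P : Ideal (MvPolynomial σ ℂ)) :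
    trdeg ℂ (MvPolynomial σ ℂ ⧸ P) ≤ (Fintype.card σ : ℕ) := by
  refine (trdeg_le_of_surjective (Ideal.Quotient.mkₐ ℂ P) Ideal.Quotient.mk_surjective).trans ?_
  rw [MvPolynomial.trdeg_of_isDomain, Cardinal.mk_fintype]
  simp

end Vale.Agent.P199.K.Trdeg
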