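import Vale.Agent.P199.K.Pins
import Vale.Agent.P199.K.HS.Graded
import Vale.Agent.P199.K.HS.Trdeg

/-!
P199 (F6): the product of two good primes. The Hilbert series of the ideal spanned by `P` and `Q`
in the joint variables is the product of the two series; some prime of the filtration keeps the
product class.
-/

namespace Vale.Agent.P199.K.Prod

open MvPolynomial
open scoped BigOperators TensorProduct

section

variable {σ τ ι : Type} [Fintype σ] [Fintype τ] (w : σ → ι →₀ ℕ) (w' : τ → ι →₀ ℕ)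
  (P : Ideal (MvPolynomial σ ℂ)) (Q : Ideal (MvPolynomial τ ℂ))

/-- The ideal spanned by both. -/
noncomputable def join : Ideal (MvPolynomial (σ ⊕ τ) ℂ) :=
  P.map (rename Sum.inl : MvPolynomial σ ℂ →ₐ[ℂ] MvPolynomial (σ ⊕ τ) ℂ) ⊔
    Q.map (rename Sum.inr : MvPolynomial τ ℂ →ₐ[ℂ] MvPolynomial (σ ⊕ τ) ℂ)

theorem join_isHom (hP : IsHom w P) (hQ : IsHom w' Q) : IsHom (Sum.elim w w') (join P Q) := by
  unfold join
  rw [Gr.eq_span w hP, Gr.eq_span w' hQ, Ideal.map_span, Ideal.map_span, ← Ideal.span_union]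
  refine Gr.isHom_span _ ?_
  rintro _ (⟨f, ⟨-, d, hd⟩, rfl⟩ | ⟨f, ⟨-, d, hd⟩, rfl⟩)
  · exact ⟨d, Gr.rename_hom w Sum.inl (fun _ => rfl) hd⟩
  · exact ⟨d, Gr.rename_hom w' Sum.inr (fun _ => rfl) hd⟩

/-- The map to the tensor product of the quotients. -/
noncomputable def toTensor : MvPolynomial (σ ⊕ τ) ℂ →ₐ[ℂ]
    (MvPolynomial σ ℂ ⧸ P) ⊗[ℂ] (MvPolynomial τ ℂ ⧸ Q) :=
  aeval (Sum.elim (fun v => Ideal.Quotient.mk P (X v) ⊗ₜ[ℂ] 1)
    fun v => 1 ⊗ₜ[ℂ] Ideal.Quotient.mk Q (X v))

theorem toTensor_inl (f : MvPolynomial σ ℂ) :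
    toTensor P Q (rename Sum.inl f) = Ideal.Quotient.mk P f ⊗ₜ[ℂ] 1 := by
  have : (toTensor P Q).comp (rename Sum.inl) =
      Algebra.TensorProduct.includeLeft.comp (Ideal.Quotient.mkₐ ℂ P) :=
    algHom_ext fun v => by simp [toTensor]
  exact congrArg (fun g => g f) (congrArg DFunLike.coe this)

theorem toTensor_inr (f : MvPolynomial τ ℂ) :
    toTensor P Q (rename Sum.inr f) = 1 ⊗ₜ[ℂ] Ideal.Quotient.mk Q f := by
  have : (toTensor P Q).comp (rename Sum.inr) =
      Algebra.TensorProduct.includeRight.comp (Ideal.Quotient.mkₐ ℂ Q) :=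
    algHom_ext fun v => by simp [toTensor]
  exact congrArg (fun g => g f) (congrArg DFunLike.coe this)

theorem toTensor_eq_zero (f : MvPolynomial (σ ⊕ τ) ℂ) :
    toTensor P Q f = 0 ↔ f ∈ join P Q := by
  constructor
  · intro h
    let gl : (MvPolynomial σ ℂ ⧸ P) →ₐ[ℂ] MvPolynomial (σ ⊕ τ) ℂ ⧸ join P Q :=
      Ideal.Quotient.liftₐ P ((Ideal.Quotient.mkₐ ℂ (join P Q)).comp (rename Sum.inl))
        fun a ha => Ideal.Quotient.eq_zero_iff_mem.2 <| Ideal.mem_sup_left <|
          Ideal.mem_map_of_mem _ ha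
    let gr : (MvPolynomial τ ℂ ⧸ Q) →ₐ[ℂ] MvPolynomial (σ ⊕ τ) ℂ ⧸ join P Q :=
      Ideal.Quotient.liftₐ Q ((Ideal.Quotient.mkₐ ℂ (join P Q)).comp (rename Sum.inr))
        fun a ha => Ideal.Quotient.eq_zero_iff_mem.2 <| Ideal.mem_sup_right <|
          Ideal.mem_map_of_mem _ ha
    have hc : (Algebra.TensorProduct.lift gl gr fun _ _ => mul_comm _ _).comp (toTensor P Q) =
        Ideal.Quotient.mkₐ ℂ (join P Q) := by
      refine algHom_ext fun v => ?_
      rcases v with v | v
      · rw [AlgHom.comp_apply, toTensor, aeval_X, Sum.elim_inl]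
        refine (Algebra.TensorProduct.lift_tmul _ _ _ _ _).trans ?_
        rw [map_one, mul_one]
        show Ideal.Quotient.mk (join P Q) (rename Sum.inl (X v)) = _
        rw [rename_X]
        rfl
      · rw [AlgHom.comp_apply, toTensor, aeval_X, Sum.elim_inr]
        refine (Algebra.TensorProduct.lift_tmul _ _ _ _ _).trans ?_
        rw [map_one, one_mul]
        show Ideal.Quotient.mk (join P Q) (rename Sum.inr (X v)) = _
        rw [rename_X]
        rfl
    have := congrArg (fun g => g f) (congrArg DFunLike.coe hc)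
    simp only [AlgHom.comp_apply, h, map_zero] at this
    exact Ideal.Quotient.eq_zero_iff_mem.1 this.symm
  · intro h
    have : join P Q ≤ RingHom.ker (toTensor P Q) := by
      refine sup_le ?_ ?_ <;> rw [Ideal.map_le_iff_le_comap] <;> intro a ha
      · simp [toTensor_inl, Ideal.Quotient.eq_zero_iff_mem.2 ha]
      · simp [toTensor_inr, Ideal.Quotient.eq_zero_iff_mem.2 ha]
    exact this h

/-- One graded piece of a quotient. -/
abbrev piece (I : Ideal (MvPolynomial σ ℂ)) (d : ι →₀ ℕ) : Type :=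
  (weightedHomogeneousSubmodule ℂ w d) ⧸
    (I.restrictScalars ℂ).comap (weightedHomogeneousSubmodule ℂ w d).subtype

/-- Representatives of bases of the pieces. -/
theorem exists_reps (hw : ∀ v, w v ≠ 0) (hP : IsHom w P) :
    ∃ e : (Σ d, Fin (hilb w P d)) → MvPolynomial σ ℂ,
      (∀ x, IsWeightedHomogeneous w (e x) x.1) ∧
      LinearIndependent ℂ (fun x => Ideal.Quotient.mk P (e x)) ∧
      ∀ d f, IsWeightedHomogeneous w f d → Ideal.Quotient.mk P f ∈
        Submodule.span ℂ (Set.range fun i : Fin (hilb w P d) =>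
          Ideal.Quotient.mk P (e ⟨d, i⟩)) := by
  classical
  have := fun d => Gr.finite_piece w hw d
  let b : ∀ d, Module.Basis (Fin (hilb w P d)) ℂ (piece w P d) :=
    fun d => Module.finBasis ℂ (piece w P d)
  choose pre hpre using fun x : Σ d, Fin (hilb w P d) =>
    Submodule.Quotient.mk_surjective _ (b x.1 x.2)
  refine ⟨fun x => (pre x).1, fun x => (pre x).2, ?_, ?_⟩
  · rw [linearIndependent_iff']
    intro s g hg x hx
    have hmem : (∑ y ∈ s, g y • (pre y).1) ∈ P := by
      rw [← Ideal.Quotient.eq_zero_iff_mem, map_sum, ← hg]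
      exact Finset.sum_congr rfl fun y _ => map_smul (Ideal.Quotient.mkₐ ℂ P) _ _
    obtain ⟨d, i⟩ := x
    have h2 := hP _ hmem d
    rw [map_sum] at h2
    simp only [map_smul] at h2
    let s' : Finset (Fin (hilb w P d)) := Finset.univ.filter fun j => Sigma.mk (β := fun d => Fin (hilb w P d)) d j ∈ s
    have h3 : ∑ y ∈ s, g y • weightedHomogeneousComponent w d (pre y).1 =
        ((∑ j ∈ s', g ⟨d, j⟩ • pre ⟨d, j⟩ : weightedHomogeneousSubmodule ℂ w d) :
          MvPolynomial σ ℂ) := by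
      show _ = (weightedHomogeneousSubmodule ℂ w d).subtype (∑ j ∈ s', g ⟨d, j⟩ • pre ⟨d, j⟩)
      rw [map_sum]
      simp only [map_smul, Submodule.subtype_apply]
      rw [← Finset.sum_subset (s₁ := s'.map ⟨Sigma.mk d, sigma_mk_injective⟩) (s₂ := s) ?_ ?_,
        Finset.sum_map]
      · exact Finset.sum_congr rfl fun j _ =>
          congrArg (g ⟨d, j⟩ • ·) (weightedHomogeneousComponent_eq_self (pre ⟨d, j⟩).2)
      · intro y hy
        obtain ⟨j, hj, rfl⟩ := Finset.mem_map.1 hy
        exact (Finset.mem_filter.1 hj).2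
      · rintro ⟨d', j⟩ hy hn
        have hne : d ≠ d' := by
          rintro rfl
          exact hn (Finset.mem_map.2 ⟨j, Finset.mem_filter.2 ⟨Finset.mem_univ _, hy⟩, rfl⟩)
        rw [IsWeightedHomogeneous.weightedHomogeneousComponent_ne d (pre ⟨d', j⟩).2 hne, smul_zero]
    rw [h3] at h2
    have h4 : ∑ j ∈ s', g ⟨d, j⟩ • b d j = 0 := by
      have e4 : ∀ j, g ⟨d, j⟩ • b d j =
          Submodule.mkQ _ (g ⟨d, j⟩ • pre ⟨d, j⟩) := fun j => by
        rw [map_smul]; exact congrArg (g ⟨d, j⟩ • ·) (hpre ⟨d, j⟩).symm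
      rw [Finset.sum_congr rfl fun j _ => e4 j]
      exact (map_sum (Submodule.mkQ _) _ _).symm.trans ((Submodule.Quotient.mk_eq_zero _).2 h2)
    exact linearIndependent_iff'.1 (b d).linearIndependent s' _ h4 i
      (Finset.mem_filter.2 ⟨Finset.mem_univ _, hx⟩)
  · intro d f hf
    let f' : weightedHomogeneousSubmodule ℂ w d := ⟨f, hf⟩
    have h := (b d).sum_repr (Submodule.Quotient.mk f')
    have e4 : ∀ j, ((b d).repr (Submodule.Quotient.mk f')) j • b d j = Submodule.mkQ _
        (((b d).repr (Submodule.Quotient.mk f')) j • pre ⟨d, j⟩) := fun j => by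
      rw [map_smul]; exact congrArg (_ • ·) (hpre ⟨d, j⟩).symm
    rw [Finset.sum_congr rfl fun j _ => e4 j] at h
    replace h := (map_sum (Submodule.mkQ _) _ _).trans h
    have h1 := (Submodule.Quotient.eq _).1 h.symm
    simp only [Submodule.mem_comap, Submodule.subtype_apply, Submodule.coe_sub, Submodule.coe_sum,
      Submodule.coe_smul, Submodule.restrictScalars_mem, f'] at h1
    rw [Ideal.Quotient.eq.2 h1, map_sum]
    refine Submodule.sum_mem _ fun j _ => ?_
    rw [show Ideal.Quotient.mk P (((b d).repr (Submodule.Quotient.mk ⟨f, hf⟩)) j • (pre ⟨d, j⟩).1)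
      = _ from map_smul (Ideal.Quotient.mkₐ ℂ P) _ _]
    exact Submodule.smul_mem _ _ (Submodule.subset_span ⟨j, rfl⟩)

omit [Fintype σ] [Fintype τ] in
theorem monomial_split (m : σ ⊕ τ →₀ ℕ) :
    ∃ (m₁ : σ →₀ ℕ) (m₂ : τ →₀ ℕ), monomial m (1 : ℂ) =
      rename Sum.inl (monomial m₁ (1 : ℂ)) * rename Sum.inr (monomial m₂ (1 : ℂ)) := by
  refine ⟨m.comapDomain Sum.inl Sum.inl_injective.injOn,
    m.comapDomain Sum.inr Sum.inr_injective.injOn, ?_⟩
  rw [rename_monomial, rename_monomial, monomial_mul, one_mul]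
  refine congrArg (fun k => monomial k (1 : ℂ)) (Finsupp.ext fun v => ?_)
  rcases v with v | v
  · rw [Finsupp.add_apply, Finsupp.mapDomain_apply Sum.inl_injective,
      Finsupp.mapDomain_of_notMem_range _ _ (by simp)]
    simp
  · rw [Finsupp.add_apply, Finsupp.mapDomain_apply Sum.inr_injective,
      Finsupp.mapDomain_of_notMem_range _ _ (by simp)]
    simp

theorem hilb_join [DecidableEq ι] (hw : ∀ v, w v ≠ 0) (hw' : ∀ v, w' v ≠ 0) (hP : IsHom w P)
    (hQ : IsHom w' Q) (d : ι →₀ ℕ) :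
    hilb (Sum.elim w w') (join P Q) d =
      ∑ p ∈ Finset.HasAntidiagonal.antidiagonal d, hilb w P p.1 * hilb w' Q p.2 := by
  classical
  obtain ⟨e, he, hli, hspan⟩ := exists_reps w P hw hP
  obtain ⟨e', he', hli', hspan'⟩ := exists_reps w' Q hw' hQ
  let κ := Σ p : Finset.HasAntidiagonal.antidiagonal d, Fin (hilb w P p.1.1) × Fin (hilb w' Q p.1.2)
  let v : κ → (MvPolynomial σ ℂ ⧸ P) ⊗[ℂ] (MvPolynomial τ ℂ ⧸ Q) := fun x =>
    Ideal.Quotient.mk P (e ⟨x.1.1.1, x.2.1⟩) ⊗ₜ[ℂ] Ideal.Quotient.mk Q (e' ⟨x.1.1.2, x.2.2⟩)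
  have hv : LinearIndependent ℂ v := by
    refine (hli.tmul_of_isDomain hli').comp (fun x : κ => (Sigma.mk (β := fun d => Fin (hilb w P d)) x.1.1.1 x.2.1,
      Sigma.mk (β := fun d => Fin (hilb w' Q d)) x.1.1.2 x.2.2)) ?_
    rintro ⟨⟨⟨a, b⟩, h⟩, i, j⟩ ⟨⟨⟨a', b'⟩, h'⟩, i', j'⟩ hxy
    simp only [Prod.mk.injEq, Sigma.mk.injEq] at hxy
    obtain ⟨⟨rfl, hi⟩, ⟨rfl, hj⟩⟩ := hxy
    obtain rfl := eq_of_heq hi
    obtain rfl := eq_of_heq hj
    rfl
  set S := weightedHomogeneousSubmodule ℂ (Sum.elim w w') d with hS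
  let π : S →ₗ[ℂ] (MvPolynomial σ ℂ ⧸ P) ⊗[ℂ] (MvPolynomial τ ℂ ⧸ Q) :=
    (toTensor P Q).toLinearMap.comp S.subtype
  have hπ : ∀ x : S, π x = toTensor P Q x.1 := fun x => rfl
  have hker : LinearMap.ker π = ((join P Q).restrictScalars ℂ).comap S.subtype := by
    ext x
    simp [π, toTensor_eq_zero]
  have hr : LinearMap.range π = Submodule.span ℂ (Set.range v) := by
    refine le_antisymm ?_ (Submodule.span_le.2 ?_)
    · rintro _ ⟨⟨f, hf⟩, rfl⟩
      show toTensor P Q f ∈ _
      have hf' : f.IsWeightedHomogeneous (Sum.elim w w') d := hf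
      clear hf
      induction hf' using IsWeightedHomogeneous.induction_on with
      | zero => rw [map_zero]; exact Submodule.zero_mem _
      | add p q _ _ hp hq => rw [map_add]; exact Submodule.add_mem _ hp hq
      | monomial m r hm =>
        rw [show monomial m r = r • monomial m (1 : ℂ) by
          rw [smul_monomial, smul_eq_mul, mul_one], map_smul]
        refine Submodule.smul_mem _ _ ?_
        obtain ⟨m₁, m₂, h12⟩ := monomial_split m
        have hd : Finsupp.weight w m₁ + Finsupp.weight w' m₂ = d := by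
          refine IsWeightedHomogeneous.inj_right (φ := monomial m (1 : ℂ)) (by simp) ?_
            (isWeightedHomogeneous_monomial (Sum.elim w w') m (1 : ℂ) hm)
          rw [h12]
          exact (Gr.rename_hom w Sum.inl (fun _ => rfl)
            (isWeightedHomogeneous_monomial _ _ _ rfl)).mul
            (Gr.rename_hom w' Sum.inr (fun _ => rfl) (isWeightedHomogeneous_monomial _ _ _ rfl))
        rw [h12, map_mul, toTensor_inl, toTensor_inr, Algebra.TensorProduct.tmul_mul_tmul,
          mul_one, one_mul]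
        have hA := hspan _ _ (isWeightedHomogeneous_monomial w m₁ (1 : ℂ) rfl)
        have hB := hspan' _ _ (isWeightedHomogeneous_monomial w' m₂ (1 : ℂ) rfl)
        have hAB := Submodule.apply_mem_map₂ (TensorProduct.mk ℂ _ _) hA hB
        rw [Submodule.map₂_span_span] at hAB
        refine Submodule.span_mono ?_ hAB
        rintro _ ⟨_, ⟨i, rfl⟩, _, ⟨j, rfl⟩, rfl⟩
        exact ⟨⟨⟨(_, _), Finset.HasAntidiagonal.mem_antidiagonal.2 hd⟩, i, j⟩, rfl⟩
    · rintro _ ⟨⟨⟨⟨a, b⟩, hab⟩, i, j⟩, rfl⟩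
      rw [Finset.HasAntidiagonal.mem_antidiagonal] at hab
      refine ⟨⟨rename Sum.inl (e ⟨a, i⟩) * rename Sum.inr (e' ⟨b, j⟩), ?_⟩, ?_⟩
      · have := (Gr.rename_hom (W := Sum.elim w w') w Sum.inl (fun _ => rfl) (he ⟨a, i⟩)).mul
          (Gr.rename_hom w' Sum.inr (fun _ => rfl) (he' ⟨b, j⟩))
        subst hab
        exact this
      · rw [hπ, map_mul, toTensor_inl, toTensor_inr, Algebra.TensorProduct.tmul_mul_tmul, mul_one,
          one_mul]
  show Module.finrank ℂ (S ⧸ _) = _
  rw [← hker, (LinearMap.quotKerEquivRange π).finrank_eq, hr, finrank_span_eq_card hv,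
    Fintype.card_sigma]
  simp only [Fintype.card_prod, Fintype.card_fin]
  exact (Finset.sum_coe_sort (Finset.HasAntidiagonal.antidiagonal d) fun p => hilb w P p.1 * hilb w' Q p.2)

end

section

variable {ι : Type}

/-- Lowest parts multiply. -/
theorem component_mul {R : Type} [CommRing R] (f g : MvPolynomial ι R) (a b : ℕ)
    (hf : ∀ j < a, homogeneousComponent j f = 0) (hg : ∀ j < b, homogeneousComponent j g = 0) :
    (∀ j < a + b, homogeneousComponent j (f * g) = 0) ∧
      homogeneousComponent (a + b) (f * g) = homogeneousComponent a f * homogeneousComponent b g := by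
  classical
  have hf' : ∀ m, m.degree < a → coeff m f = 0 := fun m hm => by
    have := congrArg (coeff m) (hf _ hm)
    simpa [coeff_homogeneousComponent] using this
  have hg' : ∀ m, m.degree < b → coeff m g = 0 := fun m hm => by
    have := congrArg (coeff m) (hg _ hm)
    simpa [coeff_homogeneousComponent] using this
  have key : ∀ j ≤ a + b, ∀ m, m.degree = j → coeff m (f * g) =
      coeff m (homogeneousComponent a f * homogeneousComponent b g) := by
    intro j hj m hm
    rw [coeff_mul, coeff_mul]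
    refine Finset.sum_congr rfl fun x hx => ?_
    rw [Finset.HasAntidiagonal.mem_antidiagonal] at hx
    have hdeg : x.1.degree + x.2.degree = j := by rw [← map_add, hx, hm]
    simp only [coeff_homogeneousComponent]
    rcases lt_or_ge x.1.degree a with h1 | h1
    · simp [hf' _ h1]
    rcases lt_or_ge x.2.degree b with h2 | h2
    · simp [hg' _ h2]
    rw [if_pos (by omega), if_pos (by omega)]
  have hh := (homogeneousComponent_isHomogeneous a f).mul (homogeneousComponent_isHomogeneous b g)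
  refine ⟨fun j hj => ?_, ?_⟩
  · ext m
    rw [coeff_homogeneousComponent, coeff_zero]
    split
    · rename_i hm
      rw [key j hj.le m hm]
      exact hh.coeff_eq_zero (by omega)
    · rfl
  · ext m
    rw [coeff_homogeneousComponent]
    split
    · rename_i hm
      exact key _ le_rfl m hm
    · rename_i hm
      exact (hh.coeff_eq_zero hm).symm

end

/-- The product of two good primes. -/
theorem prodPin : CorePin → ProdPin := by
  classical
  intro hcore σ τ ι _ _ _ w w' hw hw' p hp P Q hP hQ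
  haveI := Fact.mk hp
  have hW : ∀ v, Sum.elim w w' v ≠ 0 := by
    rintro (v | v)
    exacts [hw v, hw' v]
  obtain ⟨hK, hfil, hlow⟩ := hcore (σ ⊕ τ) ι (Sum.elim w w') hW
  obtain ⟨hKP, -, hlowP⟩ := hcore σ ι w hw
  obtain ⟨hKQ, -, hlowQ⟩ := hcore τ ι w' hw'
  have hI := join_isHom w w' P Q hP.2.1 hQ.2.1
  have hKI : kpoly (Sum.elim w w') (join P Q) = kpoly w P * kpoly w' Q := by
    have h1 : IsK (Sum.elim w w') (join P Q) (kpoly w P * kpoly w' Q) := by
      have hser : ser (Sum.elim w w') (join P Q) = ser w P * ser w' Q := by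
        refine MvPowerSeries.ext fun d => ?_
        rw [MvPowerSeries.coeff_mul]
        show (hilb _ _ d : ℤ) = _
        rw [hilb_join w w' P Q hw hw' hP.2.1 hQ.2.1 d, Nat.cast_sum]
        exact Finset.sum_congr rfl fun x _ => Nat.cast_mul _ _
      have hden : den (Sum.elim w w') = den w * den w' := Fintype.prod_sum_type _
      unfold IsK
      rw [MvPolynomial.coe_mul, hKP P hP.2.1, hKQ Q hQ.2.1, hser, hden, MvPolynomial.coe_mul]
      ring
    exact MvPolynomial.coe_injective _ _ (Eq.trans (hK _ hI) h1.symm)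
  obtain ⟨l, hl, hsum⟩ := hfil _ hI
  set a := codim P with ha
  set b := codim Q with hb
  have hprod := (component_mul (kshift w P) (kshift w' Q) a b (hlowP P hP.1 hP.2.1).1
    (hlowQ Q hQ.1 hQ.2.1).1).2
  have hks : kshift (Sum.elim w w') (join P Q) = kshift w P * kshift w' Q := by
    rw [kshift, hKI, map_mul]
    rfl
  have hne : map (Int.castRingHom (ZMod p))
      (homogeneousComponent (a + b) (kshift (Sum.elim w w') (join P Q))) ≠ 0 := by
    rw [hks, hprod, map_mul]
    exact mul_ne_zero hP.2.2 hQ.2.2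
  set sh : (ι →₀ ℕ) → MvPolynomial ι ℤ := fun m =>
    aeval (fun i => 1 - (X i : MvPolynomial ι ℤ)) (monomial m (1 : ℤ)) with hsh
  rw [kshift, hsum, map_list_sum, map_list_sum, map_list_sum, List.map_map, List.map_map,
    List.map_map] at hne
  obtain ⟨t, ht, ht0⟩ := List.exists_mem_ne_zero_of_sum_ne_zero hne
  obtain ⟨x, hx, rfl⟩ := List.mem_map.1 ht
  obtain ⟨hxP, hxH, hxI⟩ := hl x hx
  simp only [Function.comp_apply, map_mul] at ht0
  change map _ (homogeneousComponent (a + b) (sh x.1 * kshift (Sum.elim w w') x.2)) ≠ 0 at ht0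
  -- the codimension cannot drop
  have hge : a + b ≤ codim x.2 := by
    have := hxP
    have : IsDomain (MvPolynomial (σ ⊕ τ) ℂ ⧸ x.2) := Ideal.Quotient.isDomain x.2
    let g : (MvPolynomial σ ℂ ⧸ P) →ₐ[ℂ] MvPolynomial (σ ⊕ τ) ℂ ⧸ x.2 :=
      Ideal.Quotient.liftₐ P ((Ideal.Quotient.mkₐ ℂ x.2).comp (rename Sum.inl))
        fun c hc => Ideal.Quotient.eq_zero_iff_mem.2 <| hxI <| Ideal.mem_sup_left <|
          Ideal.mem_map_of_mem _ hc
    let g' : (MvPolynomial τ ℂ ⧸ Q) →ₐ[ℂ] MvPolynomial (σ ⊕ τ) ℂ ⧸ x.2 :=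
      Ideal.Quotient.liftₐ Q ((Ideal.Quotient.mkₐ ℂ x.2).comp (rename Sum.inr))
        fun c hc => Ideal.Quotient.eq_zero_iff_mem.2 <| hxI <| Ideal.mem_sup_right <|
          Ideal.mem_map_of_mem _ hc
    have hgen : Algebra.adjoin ℂ (Set.range g ∪ Set.range g') = ⊤ := by
      have h1 : (Algebra.adjoin ℂ (Set.range (X : σ ⊕ τ → MvPolynomial (σ ⊕ τ) ℂ))).map
          (Ideal.Quotient.mkₐ ℂ x.2) = ⊤ := by
        rw [adjoin_range_X, Algebra.map_top]
        exact (AlgHom.range_eq_top _).2 (Ideal.Quotient.mkₐ_surjective ℂ x.2)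
      refine top_unique (h1 ▸ ?_)
      rw [AlgHom.map_adjoin]
      refine Algebra.adjoin_le ?_
      rintro _ ⟨_, ⟨v | v, rfl⟩, rfl⟩
      · exact Algebra.subset_adjoin (Or.inl ⟨Ideal.Quotient.mk P (X v),
          congrArg (Ideal.Quotient.mk x.2) (rename_X _ v)⟩)
      · exact Algebra.subset_adjoin (Or.inr ⟨Ideal.Quotient.mk Q (X v),
          congrArg (Ideal.Quotient.mk x.2) (rename_X _ v)⟩)
    have fin : ∀ {υ : Type} [Fintype υ] (J : Ideal (MvPolynomial υ ℂ)),
        Algebra.trdeg ℂ (MvPolynomial υ ℂ ⧸ J) ≤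
          ((Algebra.trdeg ℂ (MvPolynomial υ ℂ ⧸ J)).toNat : Cardinal) := by
      intro υ _ J
      rw [Cardinal.cast_toNat_of_lt_aleph0
        ((Trdeg.trdeg_quotient_le J).trans_lt Cardinal.natCast_lt_aleph0)]
    have h2 := Cardinal.toNat_le_toNat (Trdeg.trdeg_le_add g g' hgen (fin P) (fin Q))
      Cardinal.natCast_lt_aleph0
    rw [Cardinal.toNat_natCast] at h2
    have le : ∀ {υ : Type} [Fintype υ] (J : Ideal (MvPolynomial υ ℂ)),
        (Algebra.trdeg ℂ (MvPolynomial υ ℂ ⧸ J)).toNat ≤ Fintype.card υ := by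
      intro υ _ J
      simpa using Cardinal.toNat_le_toNat (Trdeg.trdeg_quotient_le J) Cardinal.natCast_lt_aleph0
    have := le P
    have := le Q
    simp only [ha, hb, codim, Fintype.card_sum]
    omega
  have hlow' := (hlow x.2 hxP hxH).1
  rcases hge.lt_or_eq with hlt | heq
  · have := (component_mul (sh x.1) _ 0 (codim x.2) (by simp) hlow').1 _
      (by simpa using hlt)
    simp [this] at ht0
  · have := (component_mul (sh x.1) _ 0 (codim x.2) (by simp) hlow').2
    rw [zero_add, ← heq] at this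
    rw [this, map_mul] at ht0
    have hc : cls (Sum.elim w w') p x.2 ≠ 0 := by
      rw [cls, lowZ, ← heq]
      exact right_ne_zero_of_mul ht0
    refine ⟨x.2, ⟨hxP, hxH, hc⟩, le_trans le_sup_left hxI, le_trans le_sup_right hxI, heq.ge⟩

end Vale.Agent.P199.K.Prod
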