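import Vale.Agent.P199.K.Pins
import Vale.Agent.P199.K.HS.Graded
import Vale.Agent.P199.K.HS.Trdeg
import Vale.Agent.P199.K.HS.Prod

/-!
P199: tools for the calculus of multidegrees: strict drop of transcendence degrees, graded
substitutions, the lowest part of a filtration, the series of one hypersurface section.
-/

namespace Vale.Agent.P199.K.Cut

open MvPolynomial
open scoped BigOperators

/-! ### Transcendence degree -/

/-- The transcendence degree of a quotient, as a natural number. -/
noncomputable def tr {σ : Type} (P : Ideal (MvPolynomial σ ℂ)) : ℕ :=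
  (Algebra.trdeg ℂ (MvPolynomial σ ℂ ⧸ P)).toNat

theorem codim_eq {σ : Type} [Fintype σ] (P : Ideal (MvPolynomial σ ℂ)) :
    codim P = Fintype.card σ - tr P := rfl

theorem trdeg_eq_tr {σ : Type} [Fintype σ] (P : Ideal (MvPolynomial σ ℂ)) :
    Algebra.trdeg ℂ (MvPolynomial σ ℂ ⧸ P) = (tr P : ℕ) :=
  (Cardinal.cast_toNat_of_lt_aleph0
    ((Trdeg.trdeg_quotient_le P).trans_lt Cardinal.natCast_lt_aleph0)).symm

theorem tr_le {σ : Type} [Fintype σ] (P : Ideal (MvPolynomial σ ℂ)) : tr P ≤ Fintype.card σ := by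
  simpa [tr] using Cardinal.toNat_le_toNat (Trdeg.trdeg_quotient_le P) Cardinal.natCast_lt_aleph0

/-- A proper quotient of a domain has smaller transcendence degree. -/
theorem trdeg_lt_of_surjective {A B : Type} [CommRing A] [IsDomain A] [Algebra ℂ A] [CommRing B]
    [IsDomain B] [Algebra ℂ B] (f : A →ₐ[ℂ] B) (hf : Function.Surjective f)
    (hfin : Algebra.trdeg ℂ A < Cardinal.aleph0) {a : A} (ha : a ≠ 0) (hfa : f a = 0) :
    Algebra.trdeg ℂ B < Algebra.trdeg ℂ A := by
  by_contra hle
  rw [not_lt] at hle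
  obtain ⟨s, hs⟩ := exists_isTranscendenceBasis ℂ B
  have hcard : Cardinal.mk s = Algebra.trdeg ℂ B := hs.cardinalMk_eq_trdeg
  choose pre hpre using fun i : s => hf i
  have hc : AlgebraicIndependent ℂ (f ∘ pre) := by
    convert hs.1 using 1
    exact funext hpre
  have hx : AlgebraicIndependent ℂ pre := AlgebraicIndependent.of_comp f hc
  have hb := hx.isTranscendenceBasis_of_trdeg_le hfin (hle.trans hcard.ge)
  have halg := hb.isAlgebraic
  obtain ⟨c, hc0, hdvd⟩ := (halg.isAlgebraic a).exists_nonzero_dvd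
    (mem_nonZeroDivisors_of_ne_zero ha)
  have hfc : f (c : A) = 0 := by
    obtain ⟨b, hb⟩ := hdvd
    rw [show ((c : A)) = a * b from hb, map_mul, hfa, zero_mul]
  obtain ⟨q, hq⟩ : ∃ q : MvPolynomial s ℂ, aeval pre q = (c : A) := by
    exact (Algebra.adjoin_range_eq_range_aeval ℂ pre).le c.2
  have h0 : aeval (f ∘ pre) q = 0 := by
    rw [← hfc, ← hq]
    have hcomp : aeval (f ∘ pre) = f.comp (aeval pre) := (comp_aeval _ _).symm
    rw [hcomp]; rfl
  have hq0 : q = 0 := algebraicIndependent_iff.1 hc q h0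
  rw [hq0, map_zero] at hq
  exact hc0 (Subtype.ext hq.symm)

theorem tr_lt {σ : Type} [Fintype σ] {P Q : Ideal (MvPolynomial σ ℂ)} [P.IsPrime] [Q.IsPrime]
    (hle : P ≤ Q) {g : MvPolynomial σ ℂ} (hgQ : g ∈ Q) (hgP : g ∉ P) : tr Q < tr P := by
  have := trdeg_lt_of_surjective (Ideal.Quotient.factorₐ ℂ hle)
    (Ideal.Quotient.factor_surjective hle)
    ((Trdeg.trdeg_quotient_le P).trans_lt Cardinal.natCast_lt_aleph0)
    (a := Ideal.Quotient.mk P g) (fun h => hgP (Ideal.Quotient.eq_zero_iff_mem.1 h))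
    (Ideal.Quotient.eq_zero_iff_mem.2 hgQ)
  rw [trdeg_eq_tr, trdeg_eq_tr] at this
  exact_mod_cast this

theorem codim_lt {σ : Type} [Fintype σ] {P Q : Ideal (MvPolynomial σ ℂ)} [P.IsPrime] [Q.IsPrime]
    (hle : P ≤ Q) {g : MvPolynomial σ ℂ} (hgQ : g ∈ Q) (hgP : g ∉ P) : codim P + 1 ≤ codim Q := by
  have := tr_lt hle hgQ hgP
  have := tr_le P
  rw [codim_eq, codim_eq]
  omega

/-! ### Homogeneous substitutions -/

section Hom

variable {σ τ ι : Type} (w : σ → ι →₀ ℕ) (w' : τ → ι →₀ ℕ)
  (φ : MvPolynomial σ ℂ →ₐ[ℂ] MvPolynomial τ ℂ)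
  (hφ : ∀ v, IsWeightedHomogeneous w' (φ (X v)) (w v))

include hφ

theorem map_hom {f : MvPolynomial σ ℂ} {d : ι →₀ ℕ} (hf : IsWeightedHomogeneous w f d) :
    IsWeightedHomogeneous w' (φ f) d := by
  classical
  induction hf using IsWeightedHomogeneous.induction_on with
  | zero => rw [map_zero]; exact isWeightedHomogeneous_zero ℂ w' _
  | add p q _ _ hp hq => rw [map_add]; exact hp.add hq
  | monomial m r hm =>
    rw [monomial_eq, map_mul, Finsupp.prod, map_prod]
    have h := (isWeightedHomogeneous_C w' r).mul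
      (IsWeightedHomogeneous.prod m.support (fun v => φ (X v) ^ m v) (fun v => m v • w v)
        fun v _ => (hφ v).pow (m v))
    rw [zero_add] at h
    subst hm
    rw [Finsupp.weight_apply]
    simp only [map_pow]
    rw [show φ (C r) = C r from φ.commutes r]
    exact h

theorem map_comp (f : MvPolynomial σ ℂ) (d : ι →₀ ℕ) :
    weightedHomogeneousComponent w' d (φ f) = φ (weightedHomogeneousComponent w d f) := by
  classical
  induction f using MvPolynomial.induction_on' with
  | monomial m r =>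
    have hm := map_hom w w' φ hφ (isWeightedHomogeneous_monomial w m r rfl)
    have hm0 : IsWeightedHomogeneous w (monomial m r) (Finsupp.weight w m) :=
      isWeightedHomogeneous_monomial w m r rfl
    rw [weightedHomogeneousComponent_of_mem hm, weightedHomogeneousComponent_of_mem hm0]
    split
    · rfl
    · rw [map_zero]
  | add p q hp hq => simp only [map_add, hp, hq]

theorem isHom_comap {J : Ideal (MvPolynomial τ ℂ)} (hJ : IsHom w' J) : IsHom w (J.comap φ) := by
  intro f hf d
  rw [Ideal.mem_comap, ← map_comp w w' φ hφ]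
  exact hJ _ hf d

end Hom

section Retract

variable {σ τ ι : Type} [Fintype σ] [Fintype τ] (w : σ → ι →₀ ℕ) (w' : τ → ι →₀ ℕ)
  (φ : MvPolynomial σ ℂ →ₐ[ℂ] MvPolynomial τ ℂ) (ψ : MvPolynomial τ ℂ →ₐ[ℂ] MvPolynomial σ ℂ)

omit [Fintype σ] [Fintype τ] in
theorem retract_mem (I : Ideal (MvPolynomial σ ℂ))
    (h : ∀ v, ψ (φ (X v)) - X v ∈ I) : (I.comap ψ).comap φ = I := by
  have key : (Ideal.Quotient.mkₐ ℂ I).comp (ψ.comp φ) = Ideal.Quotient.mkₐ ℂ I :=
    algHom_ext fun v => Ideal.Quotient.eq.2 (h v)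
  ext f
  have := congrArg (fun F => F f) (congrArg DFunLike.coe key)
  simp only [AlgHom.comp_apply, Ideal.Quotient.mkₐ_eq_mk] at this
  rw [Ideal.mem_comap, Ideal.mem_comap, ← Ideal.Quotient.eq_zero_iff_mem,
    ← Ideal.Quotient.eq_zero_iff_mem, this]

omit [Fintype τ] in
theorem hilb_comap (hw : ∀ v, w v ≠ 0) (hφ : ∀ v, IsWeightedHomogeneous w' (φ (X v)) (w v))
    (hψ : ∀ v, IsWeightedHomogeneous w (ψ (X v)) (w' v)) (hid : ∀ f, φ (ψ f) = f)
    (J : Ideal (MvPolynomial τ ℂ)) (d : ι →₀ ℕ) : hilb w (J.comap φ) d = hilb w' J d := by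
  have := Gr.finite_piece w hw d
  let L : weightedHomogeneousSubmodule ℂ w d →ₗ[ℂ] weightedHomogeneousSubmodule ℂ w' d :=
    LinearMap.codRestrict _ (φ.toLinearMap.comp (weightedHomogeneousSubmodule ℂ w d).subtype)
      fun x => map_hom w w' φ hφ x.2
  have hL : Function.Surjective L := fun y =>
    ⟨⟨ψ y.1, map_hom w' w ψ hψ y.2⟩, Subtype.ext (hid y.1)⟩
  let M := (Submodule.mkQ ((J.restrictScalars ℂ).comap
    (weightedHomogeneousSubmodule ℂ w' d).subtype)).comp L
  have hM : Function.Surjective M := (Submodule.mkQ_surjective _).comp hL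
  have hk : LinearMap.ker M = ((J.comap φ).restrictScalars ℂ).comap
      (weightedHomogeneousSubmodule ℂ w d).subtype := by
    ext x
    rw [LinearMap.mem_ker]
    exact Submodule.Quotient.mk_eq_zero _
  unfold hilb
  rw [← hk]
  exact (M.quotKerEquivOfSurjective hM).finrank_eq

omit [Fintype σ] [Fintype τ] in
theorem tr_comap (hid : ∀ f, φ (ψ f) = f) (J : Ideal (MvPolynomial τ ℂ)) :
    tr (J.comap φ) = tr J := by
  let h := (Ideal.Quotient.mkₐ ℂ J).comp φ
  have hs : Function.Surjective h :=
    (Ideal.Quotient.mkₐ_surjective ℂ J).comp fun y => ⟨ψ y, hid y⟩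
  have hk : RingHom.ker h = J.comap φ := by
    ext f
    rw [RingHom.mem_ker, Ideal.mem_comap]
    exact Ideal.Quotient.eq_zero_iff_mem
  unfold tr
  rw [← hk, (Ideal.quotientKerAlgEquivOfSurjective hs).trdeg_eq]

end Retract

/-! ### The shift `T = 1 - s` -/

section Shift

variable {ι : Type}

/-- The monomial `T ^ d` after the substitution. -/
noncomputable def sh (d : ι →₀ ℕ) : MvPolynomial ι ℤ :=
  aeval (fun i => 1 - (X i : MvPolynomial ι ℤ)) (monomial d (1 : ℤ))

/-- The linear form of a degree over the integers. -/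
noncomputable def linZ (d : ι →₀ ℕ) : MvPolynomial ι ℤ :=
  d.sum fun i n => C (n : ℤ) * X i

theorem map_linZ (p : ℕ) (d : ι →₀ ℕ) : map (Int.castRingHom (ZMod p)) (linZ d) = lin p d := by
  simp [linZ, lin, Finsupp.sum, map_sum]

theorem sh_low (d : ι →₀ ℕ) :
    homogeneousComponent 0 (sh d) = 1 ∧ homogeneousComponent 1 (sh d) = -linZ d := by
  classical
  have h00 : homogeneousComponent 0 (1 : MvPolynomial ι ℤ) = 1 := by
    simp [homogeneousComponent_zero]
  have hX : ∀ i : ι, homogeneousComponent 0 (X i : MvPolynomial ι ℤ) = 0 ∧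
      homogeneousComponent 1 (X i : MvPolynomial ι ℤ) = X i := fun i => by
    constructor
    · simp [homogeneousComponent_zero]
    · exact (homogeneousComponent_of_mem (isHomogeneous_X ℤ i)).trans (if_pos rfl)
  have hone : ∀ i : ι, ∀ f : MvPolynomial ι ℤ, homogeneousComponent 0 f = 1 →
      homogeneousComponent 0 (f * (1 - X i)) = 1 ∧
      homogeneousComponent 1 (f * (1 - X i)) = homogeneousComponent 1 f - X i := by
    intro i f hf
    have hm := Prod.component_mul f (X i) 0 1 (by simp) (fun j hj => by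
      obtain rfl : j = 0 := by omega
      exact (hX i).1)
    rw [zero_add] at hm
    rw [mul_sub, mul_one, map_sub, map_sub, hm.1 0 Nat.one_pos, hm.2, hf, (hX i).2, sub_zero,
      one_mul]
    exact ⟨rfl, rfl⟩
  have hlin : ∀ (i : ι) (d : ι →₀ ℕ), linZ (d + Finsupp.single i 1) = linZ d + X i := by
    intro i d
    unfold linZ
    rw [Finsupp.sum_add_index' (by simp) (by simp [add_mul]), Finsupp.sum_single_index (by simp)]
    simp
  induction d using Finsupp.induction_linear with
  | zero =>
    have h1 : homogeneousComponent 1 (1 : MvPolynomial ι ℤ) = 0 :=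
      (homogeneousComponent_of_mem (isHomogeneous_one ι ℤ)).trans (if_neg (by omega))
    simp [sh, linZ, h00, h1]
  | add f g hf hg =>
    have hm : sh (f + g) = sh f * sh g := by
      rw [sh, sh, sh, ← map_mul, monomial_mul, mul_one]
    have hlfg : linZ (f + g) = linZ f + linZ g :=
      Finsupp.sum_add_index' (by simp) (by simp [add_mul])
    have hf0 := Prod.component_mul (sh f) (sh g) 0 0 (by simp) (by simp)
    refine ⟨by rw [hm, hf0.2, hf.1, hg.1, mul_one], ?_⟩
    have h2 : sh f * sh g = (sh f - 1) * (sh g - 1) + sh f + sh g - 1 := by ring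
    have hlow : ∀ x : MvPolynomial ι ℤ, homogeneousComponent 0 x = 1 →
        ∀ j < 1, homogeneousComponent j (x - 1) = 0 := by
      intro x hx j hj
      obtain rfl : j = 0 := by omega
      rw [map_sub, hx, h00, sub_self]
    have hq := (Prod.component_mul (sh f - 1) (sh g - 1) 1 1 (hlow _ hf.1) (hlow _ hg.1)).1 1
      (by omega)
    have h1 : homogeneousComponent 1 (1 : MvPolynomial ι ℤ) = 0 :=
      (homogeneousComponent_of_mem (isHomogeneous_one ι ℤ)).trans (if_neg (by omega))
    rw [hm, h2, map_sub, map_add, map_add, hq, hf.2, hg.2, h1, hlfg]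
    ring
  | single i n =>
    induction n with
    | zero =>
      have h1 : homogeneousComponent 1 (1 : MvPolynomial ι ℤ) = 0 :=
        (homogeneousComponent_of_mem (isHomogeneous_one ι ℤ)).trans (if_neg (by omega))
      simp [sh, linZ, h00, h1]
    | succ n ih =>
      have hm : sh (Finsupp.single i (n + 1)) = sh (Finsupp.single i n) * (1 - X i) := by
        rw [Finsupp.single_add, sh, sh, ← mul_one (1 : ℤ), ← monomial_mul, map_mul, mul_one]
        exact congrArg _ (aeval_X _ i)
      rw [hm]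
      obtain ⟨a, b⟩ := hone i _ ih.1
      refine ⟨a, ?_⟩
      rw [b, ih.2, Finsupp.single_add, hlin]
      ring

theorem low_prod {α : Type} (t : Finset α) (d : α → ι →₀ ℕ) :
    (∀ j < t.card, homogeneousComponent j (∏ a ∈ t, (1 - sh (d a))) = 0) ∧
      homogeneousComponent t.card (∏ a ∈ t, (1 - sh (d a))) = ∏ a ∈ t, linZ (d a) := by
  classical
  induction t using Finset.induction_on with
  | empty => simp [homogeneousComponent_zero]
  | insert a t ha ih =>
    have h1 : homogeneousComponent 1 (1 - sh (d a)) = linZ (d a) := by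
      rw [map_sub, (sh_low (d a)).2]
      simp [show homogeneousComponent 1 (1 : MvPolynomial ι ℤ) = 0 from
        (homogeneousComponent_of_mem (isHomogeneous_one ι ℤ)).trans (if_neg (by omega))]
    have h0 : ∀ j < 1, homogeneousComponent j (1 - sh (d a)) = 0 := by
      intro j hj
      obtain rfl : j = 0 := by omega
      rw [map_sub, (sh_low (d a)).1]
      simp [homogeneousComponent_zero]
    have hm := Prod.component_mul _ _ 1 t.card h0 ih.1
    rw [Finset.prod_insert ha, Finset.prod_insert ha, Finset.card_insert_of_notMem ha,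
      add_comm t.card 1, hm.2, h1, ih.2]
    exact ⟨hm.1, rfl⟩

end Shift

/-! ### Series and filtrations -/

section Series

variable {σ ι : Type} [Fintype σ] (w : σ → ι →₀ ℕ)

theorem kpoly_unique {I : Ideal (MvPolynomial σ ℂ)} (hK : IsK w I (kpoly w I))
    {K : MvPolynomial ι ℤ} (h : IsK w I K) : kpoly w I = K :=
  MvPolynomial.coe_injective _ _ (Eq.trans hK h.symm)

/-- The lowest part of an ideal all whose primes have codimension at least `c`. -/
theorem low_expand [Fintype ι] (hcore : CorePin) (hw : ∀ v, w v ≠ 0)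
    {J : Ideal (MvPolynomial σ ℂ)} (hJ : IsHom w J) {c : ℕ}
    (hc : ∀ Q : Ideal (MvPolynomial σ ℂ), Q.IsPrime → J ≤ Q → c ≤ codim Q) :
    ∃ l : List (Ideal (MvPolynomial σ ℂ)),
      (∀ Q ∈ l, Q.IsPrime ∧ IsHom w Q ∧ J ≤ Q ∧ codim Q = c) ∧
      homogeneousComponent c (kshift w J) = (l.map (lowZ w)).sum := by
  classical
  obtain ⟨-, hfil, hlow⟩ := hcore σ ι w hw
  obtain ⟨l, hl, hsum⟩ := hfil J hJ
  refine ⟨(l.map Prod.snd).filter fun Q => codim Q = c, fun Q hQ => ?_, ?_⟩
  · obtain ⟨hQ1, hQ2⟩ := List.mem_filter.1 hQ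
    obtain ⟨x, hx, rfl⟩ := List.mem_map.1 hQ1
    exact ⟨(hl x hx).1, (hl x hx).2.1, (hl x hx).2.2, of_decide_eq_true hQ2⟩
  · rw [kshift, hsum]
    clear hsum
    induction l with
    | nil => simp
    | cons x l ih =>
      simp only [List.forall_mem_cons] at hl
      obtain ⟨⟨hxP, hxH, hxJ⟩, hl⟩ := hl
      rw [List.map_cons, List.sum_cons, map_add, map_add, ih hl, map_mul, List.map_cons,
        List.filter_cons]
      have hm := Prod.component_mul (sh x.1) (kshift w x.2) 0 (codim x.2) (by simp)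
        (hlow x.2 hxP hxH).1
      rw [zero_add] at hm
      rw [show (aeval fun i => 1 - (X i : MvPolynomial ι ℤ)) (monomial x.1 (1 : ℤ)) = sh x.1
        from rfl, show (aeval fun i => 1 - (X i : MvPolynomial ι ℤ)) (kpoly w x.2) =
        kshift w x.2 from rfl]
      rcases (hc x.2 hxP hxJ).lt_or_eq with hlt | heq
      · rw [hm.1 c hlt, if_neg (by simp; omega), zero_add]
      · subst heq
        rw [hm.2, (sh_low x.1).1, one_mul, if_pos (by simp), List.map_cons, List.sum_cons]
        rfl

variable {P : Ideal (MvPolynomial σ ℂ)} {g : MvPolynomial σ ℂ} {d : ι →₀ ℕ}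

omit [Fintype σ] in
open Classical in
theorem comp_mul (hg : IsWeightedHomogeneous w g d) (h : MvPolynomial σ ℂ) (e : ι →₀ ℕ) :
    weightedHomogeneousComponent w e (g * h) =
      if d ≤ e then g * weightedHomogeneousComponent w (e - d) h else 0 := by
  induction h using MvPolynomial.induction_on' with
  | monomial m r =>
    have hm : IsWeightedHomogeneous w (monomial m r) (Finsupp.weight w m) :=
      isWeightedHomogeneous_monomial w m r rfl
    rw [weightedHomogeneousComponent_of_mem (hg.mul hm), weightedHomogeneousComponent_of_mem hm]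
    by_cases hde : d ≤ e
    · rw [if_pos hde]
      by_cases he : e = d + Finsupp.weight w m
      · rw [if_pos he, if_pos (by rw [he, add_tsub_cancel_left])]
      · rw [if_neg he, if_neg (fun h => he (by rw [← h, add_tsub_cancel_of_le hde])), mul_zero]
    · rw [if_neg hde, if_neg]
      intro h
      exact hde (by rw [h]; exact le_self_add)
  | add p q hp hq =>
    rw [mul_add, map_add, hp, hq]
    split
    · rw [map_add, mul_add]
    · rw [add_zero]

omit [Fintype σ] in
theorem comp_mem_sup (hP : IsHom w P) (hg : IsWeightedHomogeneous w g d) {f : MvPolynomial σ ℂ}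
    (hf : f ∈ P ⊔ Ideal.span {g}) (e : ι →₀ ℕ) :
    ∃ a ∈ P, weightedHomogeneousComponent w e f = a ∨
      (d ≤ e ∧ ∃ h, IsWeightedHomogeneous w h (e - d) ∧
        weightedHomogeneousComponent w e f = a + g * h) := by
  classical
  obtain ⟨a, ha, b, hb, rfl⟩ := Submodule.mem_sup.1 hf
  obtain ⟨h, rfl⟩ := Ideal.mem_span_singleton'.1 hb
  refine ⟨_, hP a ha e, ?_⟩
  rw [map_add, mul_comm h g, comp_mul w hg h e]
  by_cases hde : d ≤ e
  · rw [if_pos hde]
    exact Or.inr ⟨hde, _, weightedHomogeneousComponent_isWeightedHomogeneous _ _, rfl⟩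
  · rw [if_neg hde, add_zero]
    exact Or.inl rfl

omit [Fintype σ] in
theorem isHom_sup (hP : IsHom w P) (hg : IsWeightedHomogeneous w g d) :
    IsHom w (P ⊔ Ideal.span {g}) := by
  intro f hf e
  obtain ⟨a, ha, h | ⟨-, h, -, he⟩⟩ := comp_mem_sup w hP hg hf e
  · exact h ▸ Ideal.mem_sup_left ha
  · rw [he]
    exact add_mem (Ideal.mem_sup_left ha) (Ideal.mem_sup_right (Ideal.mul_mem_right _ _
      (Ideal.mem_span_singleton_self g)))

open Classical in
theorem hilb_sup (hw : ∀ v, w v ≠ 0) [P.IsPrime] (hP : IsHom w P)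
    (hg : IsWeightedHomogeneous w g d) (hgP : g ∉ P) (e : ι →₀ ℕ) :
    hilb w (P ⊔ Ideal.span {g}) e + (if d ≤ e then hilb w P (e - d) else 0) = hilb w P e := by
  have := Gr.finite_piece w hw e
  set S := weightedHomogeneousSubmodule ℂ w e
  set KP : Submodule ℂ S := (P.restrictScalars ℂ).comap S.subtype with hKP
  set KI : Submodule ℂ S := ((P ⊔ Ideal.span {g}).restrictScalars ℂ).comap S.subtype with hKI
  have hle : KP ≤ KI := Submodule.comap_mono fun x hx => Ideal.mem_sup_left hx
  have hsplit : Module.finrank ℂ (S ⧸ KI) + Module.finrank ℂ (KI.map KP.mkQ) =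
      Module.finrank ℂ (S ⧸ KP) := by
    rw [← (Submodule.quotientQuotientEquivQuotient KP KI hle).finrank_eq]
    exact Submodule.finrank_quotient_add_finrank _
  unfold hilb
  rw [← hKP, ← hKI, ← hsplit]
  congr 1
  by_cases hde : d ≤ e
  · rw [if_pos hde]
    have hmem : ∀ x : weightedHomogeneousSubmodule ℂ w (e - d), g * x.1 ∈ S := fun x => by
      have := hg.mul x.2
      rwa [add_tsub_cancel_of_le hde] at this
    let μ₀ : weightedHomogeneousSubmodule ℂ w (e - d) →ₗ[ℂ] S :=
      LinearMap.codRestrict S ((LinearMap.mulLeft ℂ g).comp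
        (weightedHomogeneousSubmodule ℂ w (e - d)).subtype) hmem
    let μ := KP.mkQ.comp μ₀
    have hker : LinearMap.ker μ = (P.restrictScalars ℂ).comap
        (weightedHomogeneousSubmodule ℂ w (e - d)).subtype := by
      ext x
      rw [LinearMap.mem_ker]
      refine (Submodule.Quotient.mk_eq_zero _).trans ?_
      exact ⟨fun h => (Ideal.IsPrime.mem_or_mem ‹_› h).resolve_left hgP,
        fun h => P.mul_mem_left g h⟩
    have hrange : LinearMap.range μ = KI.map KP.mkQ := by
      refine le_antisymm ?_ ?_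
      · rintro _ ⟨x, rfl⟩
        exact ⟨μ₀ x, Ideal.mem_sup_right (Ideal.mul_mem_right _ _
          (Ideal.mem_span_singleton_self g)), rfl⟩
      · rintro _ ⟨⟨f, hf⟩, hfI, rfl⟩
        obtain ⟨a, ha, h | ⟨-, h, hh, he⟩⟩ := comp_mem_sup w hP hg hfI e
        · refine ⟨0, ?_⟩
          rw [map_zero]
          refine ((Submodule.Quotient.mk_eq_zero _).2 ?_).symm
          show f ∈ P
          have hf' := weightedHomogeneousComponent_eq_self (w := w) hf
          rw [← hf']
          exact h ▸ ha
        · refine ⟨⟨h, hh⟩, (Submodule.Quotient.eq KP).2 ?_⟩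
          show g * h - f ∈ P
          have hf' := weightedHomogeneousComponent_eq_self (w := w) hf
          rw [show g * h - f = -a by
            have h' : f = a + g * h := hf'.symm.trans he
            rw [h']; ring]
          exact P.neg_mem ha
    rw [← hrange, ← hker]
    exact (LinearMap.quotKerEquivRange μ).finrank_eq
  · rw [if_neg hde]
    have : KI.map KP.mkQ = ⊥ := by
      rw [eq_bot_iff]
      rintro _ ⟨⟨f, hf⟩, hfI, rfl⟩
      obtain ⟨a, ha, h | ⟨hd', -⟩⟩ := comp_mem_sup w hP hg hfI e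
      · refine (Submodule.Quotient.mk_eq_zero _).2 ?_
        show f ∈ P
        rw [← weightedHomogeneousComponent_eq_self (w := w) hf]
        exact h ▸ ha
      · exact absurd hd' hde
    rw [this, finrank_bot]

theorem kpoly_sup [Fintype ι] (hcore : CorePin) (hw : ∀ v, w v ≠ 0) [P.IsPrime] (hP : IsHom w P)
    (hg : IsWeightedHomogeneous w g d) (hgP : g ∉ P) :
    kpoly w (P ⊔ Ideal.span {g}) = (1 - monomial d 1) * kpoly w P := by
  classical
  obtain ⟨hK, -, -⟩ := hcore σ ι w hw
  refine kpoly_unique w (hK _ (isHom_sup w hP hg)) ?_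
  have hser : ser w (P ⊔ Ideal.span {g}) =
      (1 - MvPowerSeries.monomial d (1 : ℤ)) * ser w P := by
    refine MvPowerSeries.ext fun e => ?_
    rw [sub_mul, one_mul, map_sub, MvPowerSeries.coeff_monomial_mul]
    show (hilb w _ e : ℤ) = (hilb w P e : ℤ) - if d ≤ e then 1 * (hilb w P (e - d) : ℤ) else 0
    rw [← hilb_sup w hw hP hg hgP e]
    push_cast
    split <;> simp
  unfold IsK
  rw [MvPolynomial.coe_mul, hK P hP, hser, show ((1 - monomial d (1 : ℤ) : MvPolynomial ι ℤ) :
      MvPowerSeries ι ℤ) = 1 - MvPowerSeries.monomial d (1 : ℤ) from by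
    rw [← MvPolynomial.coe_monomial, ← MvPolynomial.coe_one]
    exact map_sub (MvPolynomial.coeToMvPowerSeries.ringHom (σ := ι) (R := ℤ)) _ _]
  ring

end Series

end Vale.Agent.P199.K.Cut
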