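import Vale.Agent.P199.K.HS.Bot
import Vale.Agent.P199.K.HS.CutTools

/-!
P199: positivity of the multidegree of a prime, given the vanishing below the codimension.
-/

namespace Vale.Agent.P199.K.Pos

open MvPolynomial
open scoped BigOperators

variable {σ ι : Type} [Fintype σ] [Fintype ι] (w : σ → ι →₀ ℕ)

/-- Evaluation at a real point. -/
noncomputable def evR (x : ι → ℝ) : MvPolynomial ι ℤ →+* ℝ := eval₂Hom (Int.castRingHom ℝ) x

theorem evR_monomial (x : ι → ℝ) (d : ι →₀ ℕ) (c : ℤ) :
    evR x (monomial d c) = (c : ℝ) * ∏ i, x i ^ d i := by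
  rw [evR, coe_eval₂Hom, eval₂_monomial, Finsupp.prod_fintype _ _ (fun i => pow_zero _)]
  rfl

theorem evR_eq_sum (x : ι → ℝ) (f : MvPolynomial ι ℤ) (s : Finset (ι →₀ ℕ))
    (hs : f.support ⊆ s) : evR x f = ∑ d ∈ s, ((coeff d f : ℤ) : ℝ) * ∏ i, x i ^ d i := by
  conv_lhs => rw [f.as_sum]
  rw [map_sum, Finset.sum_subset hs]
  · exact Finset.sum_congr rfl fun d _ => evR_monomial x d _
  · intro d _ hd
    rw [notMem_support_iff.1 hd, map_zero, map_zero]

theorem evR_pos_of_nonneg {x : ι → ℝ} (hx0 : ∀ i, 0 ≤ x i) {f : MvPolynomial ι ℤ}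
    (hf : ∀ d, 0 ≤ f.coeff d) : 0 ≤ evR x f := by
  rw [evR_eq_sum x f f.support subset_rfl]
  exact Finset.sum_nonneg fun d _ => mul_nonneg (by exact_mod_cast hf d)
    (Finset.prod_nonneg fun i _ => pow_nonneg (hx0 i) _)

omit [Fintype ι] in
/-- Multiplying a series by `∏ (1 - T ^ a v)` keeps the coefficients of small degree. -/
theorem coeff_mul_small {α : Type} (E : MvPowerSeries ι ℤ) (a : α → ι →₀ ℕ) (t : Finset α)
    (d : ι →₀ ℕ) (hd : ∀ v ∈ t, ¬ a v ≤ d) :
    MvPowerSeries.coeff d (E * ∏ v ∈ t, (1 - MvPowerSeries.monomial (a v) (1 : ℤ))) =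
      MvPowerSeries.coeff d E := by
  classical
  induction t using Finset.induction_on with
  | empty => simp
  | insert v t hv ih =>
    rw [Finset.prod_insert hv, mul_left_comm, sub_mul, one_mul, map_sub,
      MvPowerSeries.coeff_monomial_mul, if_neg (hd v (Finset.mem_insert_self _ _)), sub_zero,
      ih fun u hu => hd u (Finset.mem_insert_of_mem hu)]

/-- A polynomial which is `∏ (1 - T ^ w v)` times a series with nonnegative coefficients is
nonnegative on the open unit cube. -/
theorem eval_nonneg (hw : ∀ v, w v ≠ 0) (R : MvPolynomial ι ℤ) (E : MvPowerSeries ι ℤ)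
    (hE : ∀ d, 0 ≤ MvPowerSeries.coeff d E)
    (hR : (R : MvPowerSeries ι ℤ) = E * (den w : MvPowerSeries ι ℤ))
    (x : ι → ℝ) (hx0 : ∀ i, 0 < x i) (hx1 : ∀ i, x i < 1) : 0 ≤ evR x R := by
  classical
  -- a bound for the point
  obtain ⟨θ, hθ0, hθ1, hθ⟩ : ∃ θ : ℝ, 0 ≤ θ ∧ θ < 1 ∧ ∀ i, x i ≤ θ := by
    rcases isEmpty_or_nonempty ι with h | h
    · exact ⟨0, le_rfl, one_pos, fun i => (IsEmpty.false i).elim⟩
    · obtain ⟨j, -, hj⟩ := Finset.exists_max_image Finset.univ x Finset.univ_nonempty
      exact ⟨x j, (hx0 j).le, hx1 j, fun i => hj i (Finset.mem_univ i)⟩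
  let A : MvPolynomial ι ℤ := ∑ d ∈ R.support, monomial d |R.coeff d|
  have hA : ∀ d, |R.coeff d| = A.coeff d := by
    intro d
    simp only [A, coeff_sum, coeff_monomial, Finset.sum_ite_eq']
    split_ifs with h
    · rfl
    · rw [notMem_support_iff.1 h, abs_zero]
  by_contra hneg
  rw [not_le] at hneg
  have hlim : Filter.Tendsto (fun m : ℕ => evR (fun _ => 1) A *
      ((m : ℝ) ^ Fintype.card σ * θ ^ m)) Filter.atTop (nhds 0) := by
    simpa using (tendsto_pow_const_mul_const_pow_of_lt_one (Fintype.card σ) hθ0 hθ1).const_mul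
      (evR (fun _ => 1) A)
  obtain ⟨m, hm1, hm⟩ := ((Filter.eventually_ge_atTop 1).and
    (hlim.eventually (gt_mem_nhds (neg_pos.2 hneg)))).exists
  -- the truncated inverse of the denominator
  let G : MvPolynomial ι ℤ := ∏ v, ∑ k ∈ Finset.range m, monomial (k • w v) 1
  have hG : ∀ y : ι → ℝ, evR y G = ∏ v, ∑ k ∈ Finset.range m, ∏ i, y i ^ (k • w v) i := by
    intro y
    simp [G, map_prod, map_sum, evR_monomial]
  have hden : den w * G = ∏ v, (1 - monomial (m • w v) (1 : ℤ)) := by
    rw [den, ← Finset.prod_mul_distrib]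
    refine Finset.prod_congr rfl fun v _ => ?_
    have h1 : ∀ k : ℕ, monomial (k • w v) (1 : ℤ) = monomial (w v) 1 ^ k := fun k => by
      rw [monomial_pow, one_pow]
    simp only [h1]
    exact mul_neg_geom_sum _ _
  have hQ : ((R * G : MvPolynomial ι ℤ) : MvPowerSeries ι ℤ) =
      E * ∏ v, (1 - MvPowerSeries.monomial (m • w v) (1 : ℤ)) := by
    rw [coe_mul, hR, mul_assoc, ← coe_mul, hden, ← coeToMvPowerSeries.ringHom_apply, map_prod]
    refine congrArg _ (Finset.prod_congr rfl fun v _ => ?_)
    rw [map_sub, map_one, coeToMvPowerSeries.ringHom_apply, coe_monomial]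
  have hGpos : ∀ d, 0 ≤ G.coeff d := by
    refine Finset.prod_induction _ (fun f : MvPolynomial ι ℤ => ∀ d, 0 ≤ f.coeff d) ?_ ?_ ?_
    · intro f g hf hg d
      rw [coeff_mul]
      exact Finset.sum_nonneg fun p _ => mul_nonneg (hf _) (hg _)
    · intro d
      rw [coeff_one]
      split_ifs <;> norm_num
    · intro v _ d
      rw [coeff_sum]
      refine Finset.sum_nonneg fun k _ => ?_
      rw [coeff_monomial]
      split_ifs <;> norm_num
  have hdom : ∀ d, |(R * G).coeff d| ≤ (A * G).coeff d := by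
    intro d
    rw [coeff_mul, coeff_mul]
    refine (Finset.abs_sum_le_sum_abs _ _).trans (Finset.sum_le_sum fun p _ => le_of_eq ?_)
    rw [abs_mul, hA, abs_of_nonneg (hGpos p.2)]
  have hlow : 0 ≤ evR x (R * G) + θ ^ m * evR (fun _ => 1) (A * G) := by
    rw [evR_eq_sum x _ ((R * G).support ∪ (A * G).support) Finset.subset_union_left,
      evR_eq_sum _ _ ((R * G).support ∪ (A * G).support) Finset.subset_union_right,
      Finset.mul_sum, ← Finset.sum_add_distrib]
    refine Finset.sum_nonneg fun d _ => ?_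
    simp only [one_pow, Finset.prod_const_one, mul_one]
    have hp : 0 ≤ ∏ i, x i ^ d i := Finset.prod_nonneg fun i _ => pow_nonneg (hx0 i).le _
    have hAd : (0 : ℝ) ≤ ((coeff d (A * G) : ℤ) : ℝ) := by
      exact_mod_cast (abs_nonneg _).trans (hdom d)
    by_cases hs : ∀ v : σ, ¬ m • w v ≤ d
    · have : (R * G).coeff d = MvPowerSeries.coeff d E := by
        rw [← coeff_coe, hQ, coeff_mul_small E (fun v => m • w v) _ d fun v _ => hs v]
      have hnn : (0 : ℝ) ≤ ((coeff d (R * G) : ℤ) : ℝ) := by exact_mod_cast this ▸ hE d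
      exact add_nonneg (mul_nonneg hnn hp) (mul_nonneg (pow_nonneg hθ0 m) hAd)
    · push Not at hs
      obtain ⟨v, hv⟩ := hs
      obtain ⟨i, hi⟩ := Finsupp.ne_iff.1 (hw v)
      simp only [Finsupp.coe_zero, Pi.zero_apply] at hi
      have hdi : m ≤ d i := le_trans (Nat.le_mul_of_pos_right m (Nat.pos_of_ne_zero hi))
        (by simpa [Nat.nsmul_eq_mul] using hv i)
      have hpd : ∏ i, x i ^ d i ≤ θ ^ m := by
        rw [← Finset.mul_prod_erase _ _ (Finset.mem_univ i)]
        refine (mul_le_of_le_one_right (pow_nonneg (hx0 i).le _) (Finset.prod_le_one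
          (fun j _ => pow_nonneg (hx0 j).le _) fun j _ => pow_le_one₀ (hx0 j).le (hx1 j).le)).trans ?_
        exact (pow_le_pow_of_le_one (hx0 i).le (hx1 i).le hdi).trans
          (pow_le_pow_left₀ (hx0 i).le (hθ i) m)
      have habs : -((coeff d (A * G) : ℤ) : ℝ) ≤ ((coeff d (R * G) : ℤ) : ℝ) := by
        have := (abs_le.1 (hdom d)).1
        exact_mod_cast this
      nlinarith
  have hAG : evR (fun _ => 1) (A * G) = evR (fun _ => 1) A * (m : ℝ) ^ Fintype.card σ := by
    rw [map_mul, hG]
    simp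
  have hGx : 1 ≤ evR x G := by
    rw [hG]
    refine Finset.one_le_prod fun v _ => ?_
    refine le_trans (le_of_eq ?_) (Finset.single_le_sum
      (fun k _ => Finset.prod_nonneg fun i _ => pow_nonneg (hx0 i).le _)
      (Finset.mem_range.2 hm1 : 0 ∈ Finset.range m))
    simp
  rw [map_mul, hAG] at hlow
  nlinarith

omit [Fintype ι] in
/-- The monomials in variables independent modulo `P` give a lower bound for the series. -/
theorem ncard_le_hilb (hw : ∀ v, w v ≠ 0) (P : Ideal (MvPolynomial σ ℂ)) (T : Finset σ)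
    (hT : AlgebraicIndependent ℂ
      (fun v : {v : σ // v ∉ T} => Ideal.Quotient.mk P (X v.1))) (d : ι →₀ ℕ) :
    (Bot.expo w T d).ncard ≤ hilb w P d := by
  classical
  have := (Bot.expo_finite w hw T d).fintype
  have := Gr.finite_piece w hw d
  let M := (P.restrictScalars ℂ).comap (weightedHomogeneousSubmodule ℂ w d).subtype
  let f : Bot.expo w T d → (weightedHomogeneousSubmodule ℂ w d) ⧸ M := fun m =>
    M.mkQ ⟨monomial m.1 1, isWeightedHomogeneous_monomial _ _ _ m.2.1⟩
  have hli : LinearIndependent ℂ f := by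
    rw [Fintype.linearIndependent_iff]
    intro c hc m₀
    let x : Bot.expo w T d → weightedHomogeneousSubmodule ℂ w d := fun m =>
      ⟨monomial m.1 1, isWeightedHomogeneous_monomial _ _ _ m.2.1⟩
    have hc2 : M.mkQ (∑ m, c m • x m) = 0 := by
      rw [map_sum]
      refine Eq.trans (Finset.sum_congr rfl fun m _ => ?_) hc
      rw [map_smul]
    have hc3 : ∑ m, c m • x m ∈ M := (Submodule.Quotient.mk_eq_zero M).1 hc2
    have hc : ∑ m : Bot.expo w T d, monomial m.1 (c m) ∈ P := by
      have h4 := Submodule.mem_comap.1 hc3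
      rw [map_sum] at h4
      convert h4 using 2 with m
      simp [x, smul_monomial]
    let res : (σ →₀ ℕ) → ({v : σ // v ∉ T} →₀ ℕ) := fun m => m.subtypeDomain (· ∉ T)
    have hres : ∀ m : Bot.expo w T d, (res m.1).mapDomain Subtype.val = m.1 := by
      intro m
      ext v
      by_cases hv : v ∈ T
      · rw [Finsupp.mapDomain_of_notMem_range, m.2.2 v hv]
        rintro ⟨⟨u, hu⟩, rfl⟩
        exact hu hv
      · exact Finsupp.mapDomain_apply Subtype.val_injective _ (⟨v, hv⟩ : {v : σ // v ∉ T})
    let g : MvPolynomial {v : σ // v ∉ T} ℂ := ∑ m, monomial (res m.1) (c m)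
    have hg : rename Subtype.val g = ∑ m : Bot.expo w T d, monomial m.1 (c m) := by
      simp [g, map_sum, rename_monomial, hres]
    have hg0 : g = 0 := by
      apply algebraicIndependent_iff.1 hT
      rw [← hg] at hc
      refine Eq.trans ?_ (Ideal.Quotient.eq_zero_iff_mem.2 hc)
      have h2 : (aeval fun v : {v : σ // v ∉ T} => Ideal.Quotient.mk P (X v.1)) =
          (Ideal.Quotient.mkₐ ℂ P).comp (rename Subtype.val) :=
        algHom_ext fun v => by simp
      rw [h2]
      rfl
    have hinj : Function.Injective fun m : Bot.expo w T d => res m.1 := fun a b h =>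
      Subtype.ext ((hres a).symm.trans ((congrArg _ h).trans (hres b)))
    have := congrArg (coeff (res m₀.1)) hg0
    simpa [g, coeff_sum, coeff_monomial, hinj.eq_iff] using this
  have h := hli.fintype_card_le_finrank
  rwa [← Nat.card_eq_fintype_card, Nat.card_coe_set_eq] at h

/-- Variables which are independent modulo a prime, as many as the transcendence degree. -/
theorem exists_indep (P : Ideal (MvPolynomial σ ℂ)) [P.IsPrime] :
    ∃ T : Finset σ, T.card = codim P ∧ AlgebraicIndependent ℂ
      (fun v : {v : σ // v ∉ T} => Ideal.Quotient.mk P (X v.1)) := by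
  classical
  let B := MvPolynomial σ ℂ ⧸ P
  let im : σ → B := fun v => Ideal.Quotient.mk P (X v)
  obtain ⟨I, hI⟩ := (AlgebraicIndependent.matroid ℂ B).exists_isBasis (Set.range im) (by simp)
  have hind : AlgebraicIndependent ℂ (Subtype.val : I → B) := hI.indep
  have hfin : I.Finite := (Set.finite_range im).subset hI.subset
  choose pre hpre using fun i : I => hI.subset i.2
  have hprei : Function.Injective pre := fun a b h =>
    Subtype.ext ((hpre a).symm.trans ((congrArg im h).trans (hpre b)))
  have := hfin.fintype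
  refine ⟨(Finset.univ.image pre)ᶜ, ?_, ?_⟩
  · have htop : ∀ b : B, IsAlgebraic (Algebra.adjoin ℂ (hfin.toFinset : Set B)) b := by
      rw [hfin.coe_toFinset]
      set S := (Subalgebra.algebraicClosure (Algebra.adjoin ℂ I) B).restrictScalars ℂ
      have hS : ∀ v, im v ∈ S := fun v => by
        have := hI.subset_closure ⟨v, rfl⟩
        rw [AlgebraicIndependent.matroid_closure_eq] at this
        exact this
      intro b
      obtain ⟨q, rfl⟩ := Ideal.Quotient.mk_surjective b
      show (Ideal.Quotient.mkₐ ℂ P) q ∈ S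
      induction q using MvPolynomial.induction_on with
      | C a => exact S.algebraMap_mem a
      | add p q hp hq => rw [map_add]; exact S.add_mem hp hq
      | mul_X p v hp => rw [map_mul]; exact S.mul_mem hp (hS v)
    have h1 := Trdeg.trdeg_le_of_algebraic (AlgHom.id ℂ B) Function.injective_id hfin.toFinset htop
    have h2 := hind.cardinalMk_le_trdeg
    rw [Cut.trdeg_eq_tr] at h1 h2
    rw [Cardinal.mk_fintype] at h2
    rw [Set.Finite.card_toFinset] at h1
    rw [Finset.card_compl, Finset.card_image_of_injective _ hprei, Finset.card_univ, Cut.codim_eq]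
    congr 1
    exact le_antisymm (by exact_mod_cast h2) (by exact_mod_cast h1)
  · have hex : ∀ v : {v : σ // v ∉ (Finset.univ.image pre)ᶜ}, ∃ i, pre i = v.1 := fun v => by
      have h := v.2
      rw [Finset.mem_compl, not_not, Finset.mem_image] at h
      obtain ⟨i, -, hi⟩ := h
      exact ⟨i, hi⟩
    choose φ hφ using hex
    have hφi : Function.Injective φ := fun a b h => Subtype.ext (by rw [← hφ a, ← hφ b, h])
    convert hind.comp φ hφi using 1
    funext v
    show im v.1 = (φ v).1
    rw [← hφ v, hpre]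

theorem evR_smul_point (e : ℝ) (x : ι → ℝ) {f : MvPolynomial ι ℤ} {j : ℕ}
    (hf : f.IsHomogeneous j) : evR (fun i => e * x i) f = e ^ j * evR x f := by
  rw [evR_eq_sum _ f f.support subset_rfl, evR_eq_sum _ f f.support subset_rfl, Finset.mul_sum]
  refine Finset.sum_congr rfl fun d hd => ?_
  simp only [mul_pow, Finset.prod_mul_distrib, Finset.prod_pow_eq_pow_sum]
  have : ∑ i, d i = j := by
    rw [← hf (mem_support_iff.1 hd)]
    simp [Finsupp.weight_apply, Finsupp.sum_fintype]
  rw [this]
  ring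

/-- Positivity of the multidegree of a prime at positive points. -/
theorem pos (hw : ∀ v, w v ≠ 0) (P : Ideal (MvPolynomial σ ℂ)) [P.IsPrime]
    (hK : IsK w P (kpoly w P))
    (hvan : ∀ j < codim P, homogeneousComponent j (kshift w P) = 0) (u : ι → ℤ)
    (hu : ∀ i, 0 < u i) : 0 < eval u (lowZ w P) := by
  classical
  obtain ⟨T, hTc, hT⟩ := exists_indep P
  -- the series of the independent variables
  have hcnt : ∀ s : Finset σ, Bot.cnt w ∅ * ∏ v ∈ s, (1 - MvPowerSeries.monomial (w v) (1 : ℤ)) =
      Bot.cnt w s := by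
    intro s
    induction s using Finset.induction_on with
    | empty => simp
    | insert v s hv ih =>
      rw [Finset.prod_insert hv, mul_comm _ (∏ _ ∈ _, _), ← mul_assoc, ih,
        Bot.cnt_step w hw s v hv]
  set N : MvPolynomial ι ℤ := ∏ v ∈ T, (1 - monomial (w v) 1)
  have hN : (N : MvPowerSeries ι ℤ) = Bot.cnt w T * (den w : MvPowerSeries ι ℤ) := by
    have h1 : Bot.cnt w ∅ * (den w : MvPowerSeries ι ℤ) = 1 := by
      rw [Bot.cnt_empty w hw]
      exact (Bot.isK_bot w hw).symm.trans (by simp)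
    rw [← hcnt T, mul_right_comm, h1, one_mul, ← coeToMvPowerSeries.ringHom_apply, map_prod]
    exact Finset.prod_congr rfl fun v _ => by
      rw [map_sub, map_one, coeToMvPowerSeries.ringHom_apply, coe_monomial]
  have hE : ∀ d, 0 ≤ MvPowerSeries.coeff d (ser w P - Bot.cnt w T) := fun d => by
    rw [map_sub, sub_nonneg]
    show ((Bot.expo w T d).ncard : ℤ) ≤ (hilb w P d : ℤ)
    exact_mod_cast ncard_le_hilb w hw P T hT d
  have hR : ((kpoly w P - N : MvPolynomial ι ℤ) : MvPowerSeries ι ℤ) =
      (ser w P - Bot.cnt w T) * (den w : MvPowerSeries ι ℤ) := by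
    rw [sub_mul, ← hN, ← hK, ← coeToMvPowerSeries.ringHom_apply, map_sub]
    rfl
  have hnn := eval_nonneg w hw _ _ hE hR
  -- the substitution
  set D : MvPolynomial ι ℤ := aeval (fun i => 1 - (X i : MvPolynomial ι ℤ)) (kpoly w P - N)
  have hD : D = kshift w P - ∏ v ∈ T, (1 - Cut.sh (w v)) := by
    simp [D, N, kshift, Cut.sh]
  have hDlow : ∀ j < codim P, homogeneousComponent j D = 0 := fun j hj => by
    rw [hD, map_sub, hvan j hj, (Cut.low_prod T w).1 j (hTc ▸ hj), sub_zero]
  have hDc : homogeneousComponent (codim P) D = lowZ w P - ∏ v ∈ T, Cut.linZ (w v) := by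
    rw [hD, map_sub, ← hTc, (Cut.low_prod T w).2, hTc]
    rfl
  let ur : ι → ℝ := fun i => (u i : ℝ)
  have hur : ∀ i, 0 < ur i := fun i => Int.cast_pos.2 (hu i)
  let g : ℝ → ℝ := fun e => ∑ j ∈ Finset.range (D.totalDegree + 1),
    e ^ (j - codim P) * evR ur (homogeneousComponent j D)
  have hg : ∀ e, evR (fun i => e * ur i) D = e ^ codim P * g e := by
    intro e
    conv_lhs => rw [← sum_homogeneousComponent D]
    rw [map_sum, Finset.mul_sum]
    refine Finset.sum_congr rfl fun j _ => ?_
    rw [evR_smul_point e ur (homogeneousComponent_isHomogeneous j D)]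
    rcases Nat.lt_or_ge j (codim P) with hj | hj
    · simp [hDlow j hj]
    · rw [← mul_assoc, ← pow_add, Nat.add_sub_cancel' hj]
  have hgpos : ∀ᶠ e in nhdsWithin (0 : ℝ) (Set.Ioi 0), 0 ≤ g e := by
    have hsmall : ∀ᶠ e in nhdsWithin (0 : ℝ) (Set.Ioi 0), ∀ i, e * ur i < 1 := by
      rw [Filter.eventually_all]
      intro i
      refine nhdsWithin_le_nhds ?_
      have hc : Filter.Tendsto (fun e : ℝ => e * ur i) (nhds 0) (nhds 0) :=
        (continuous_id.mul continuous_const).tendsto' 0 0 (zero_mul _)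
      exact hc.eventually (gt_mem_nhds one_pos)
    refine (hsmall.and self_mem_nhdsWithin).mono fun e he => ?_
    have he0 : 0 < e := he.2
    have h1 : evR (fun i => 1 - e * ur i) (kpoly w P - N) = evR (fun i => e * ur i) D := by
      have h2 : (evR fun i => e * ur i).comp
          (aeval (fun i => 1 - (X i : MvPolynomial ι ℤ))).toRingHom =
          evR fun i => 1 - e * ur i := by
        refine ringHom_ext (fun r => ?_) fun i => ?_
        · simp [evR]
        · simp [evR]
      rw [← h2]
      rfl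
    have h3 := hnn (fun i => 1 - e * ur i) (fun i => sub_pos.2 (he.1 i))
      (fun i => sub_lt_self _ (mul_pos he0 (hur i)))
    rw [h1, hg] at h3
    exact nonneg_of_mul_nonneg_right h3 (pow_pos he0 _)
  have hcont : Filter.Tendsto g (nhdsWithin (0 : ℝ) (Set.Ioi 0)) (nhds (g 0)) :=
    ((continuous_finsetSum _ fun j _ => ((continuous_id.pow _).mul continuous_const)).tendsto
      0).mono_left nhdsWithin_le_nhds
  have hg0 : 0 ≤ g 0 := ge_of_tendsto hcont hgpos
  have hg0' : g 0 = evR ur (homogeneousComponent (codim P) D) := by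
    show (∑ j ∈ _, _) = _
    rw [Finset.sum_eq_single (codim P)]
    · simp
    · intro j _ hj
      rcases Nat.lt_or_gt_of_ne hj with h | h
      · simp [hDlow j h]
      · rw [zero_pow (by omega), zero_mul]
    · intro h
      rw [homogeneousComponent_eq_zero _ _ (by simpa [Nat.lt_succ_iff] using h)]
      simp
  rw [hg0', hDc, map_sub, sub_nonneg] at hg0
  have hlin : ∀ v, 0 < evR ur (Cut.linZ (w v)) := by
    intro v
    simp only [Cut.linZ, Finsupp.sum, map_sum, map_mul]
    have hne : (w v).support.Nonempty := Finsupp.support_nonempty_iff.2 (hw v)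
    refine Finset.sum_pos (fun i hi => ?_) hne
    rw [Finsupp.mem_support_iff] at hi
    simp only [evR, coe_eval₂Hom, eval₂_C, eval₂_X]
    exact mul_pos (by simpa using Nat.pos_of_ne_zero hi) (hur i)
  have hpos : 0 < evR ur (lowZ w P) := by
    refine lt_of_lt_of_le ?_ hg0
    rw [map_prod]
    exact Finset.prod_pos fun v _ => hlin v
  have hcast : evR ur (lowZ w P) = ((eval u (lowZ w P) : ℤ) : ℝ) := by
    rw [evR, coe_eval₂Hom, ← eq_intCast (Int.castRingHom ℝ), ← eval₂_id, eval₂_comp_left]
    rfl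
  rw [hcast] at hpos
  exact_mod_cast hpos

end Vale.Agent.P199.K.Pos
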