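import Vale.Agent.P199.K.HS.Low
import Vale.Agent.P199.K.HS.Pos

/-!
P199: the Hilbert series block.
-/

namespace Vale.Agent.P199.K.Core

open MvPolynomial

/-- Numerators, prime filtrations, vanishing below the codimension and positivity. -/
theorem corePin : CorePin := by
  intro σ ι _ _ w hw
  refine ⟨fun I hI => isK_kpoly w hw hI, fun I hI => ?_, fun P hPp hP => ?_⟩
  · obtain ⟨l, hl, -, hsum⟩ := exists_filtration hw hI
    exact ⟨l, hl, hsum⟩
  · have := hPp
    exact ⟨low_zero hw hPp hP,
      fun u hu => Pos.pos w hw P (isK_kpoly w hw hP) (low_zero hw hPp hP) u hu⟩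

end Vale.Agent.P199.K.Core
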