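import Vale.Agent.P199.K.HS.CutTools

/-!
P199: the calculus of multidegrees (one hypersurface, split variables, elimination, the bound in
an extra grading coordinate), from the basic facts on Hilbert series.
-/

namespace Vale.Agent.P199.K.Cut

open MvPolynomial
open scoped BigOperators

section

variable {σ ι : Type} [Fintype σ] [Fintype ι] (w : σ → ι →₀ ℕ)

omit [Fintype ι] in
theorem one_sub_sh (d : ι →₀ ℕ) :
    (∀ j < 1, homogeneousComponent j (1 - sh d) = 0) ∧
      homogeneousComponent 1 (1 - sh d) = linZ d := by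
  simpa using low_prod ({()} : Finset Unit) (fun _ => d)

omit [Fintype ι] in
theorem kshift_eq_mul {τ : Type} [Fintype τ] (v : τ → ι →₀ ℕ) {I : Ideal (MvPolynomial σ ℂ)}
    {J : Ideal (MvPolynomial τ ℂ)} {d : ι →₀ ℕ}
    (h : kpoly w I = (1 - monomial d 1) * kpoly v J) :
    kshift w I = (1 - sh d) * kshift v J := by
  rw [kshift, h, map_mul, map_sub, map_one]
  rfl

/-- One hypersurface, over the integers. -/
theorem expandZ (hcore : CorePin) (hw : ∀ v, w v ≠ 0) {P : Ideal (MvPolynomial σ ℂ)} [P.IsPrime]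
    {g : MvPolynomial σ ℂ} {d : ι →₀ ℕ} (hP : IsHom w P) (hg : IsWeightedHomogeneous w g d)
    (hgP : g ∉ P) :
    ∃ l : List (Ideal (MvPolynomial σ ℂ)),
      (∀ Q ∈ l, Q.IsPrime ∧ IsHom w Q ∧ P ≤ Q ∧ g ∈ Q ∧ codim Q = codim P + 1) ∧
      linZ d * lowZ w P = (l.map (lowZ w)).sum := by
  have hmem : g ∈ P ⊔ Ideal.span {g} :=
    Ideal.mem_sup_right (Ideal.mem_span_singleton_self g)
  obtain ⟨l, hl, hsum⟩ := low_expand w hcore hw (isHom_sup w hP hg) (c := codim P + 1)
    fun Q hQ hle => by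
      have := hQ
      exact codim_lt (le_trans le_sup_left hle) (hle hmem) hgP
  refine ⟨l, fun Q hQ => ?_, ?_⟩
  · obtain ⟨a, b, c, e⟩ := hl Q hQ
    exact ⟨a, b, le_trans le_sup_left c, c hmem, e⟩
  · obtain ⟨-, -, hlow⟩ := hcore σ ι w hw
    rw [← hsum, kshift_eq_mul w w (kpoly_sup w hcore hw hP hg hgP), add_comm (codim P) 1,
      (Prod.component_mul _ _ 1 (codim P) (one_sub_sh d).1 (hlow P ‹_› hP).1).2,
      (one_sub_sh d).2]
    rfl

omit [Fintype σ] [Fintype ι] in
theorem den_split [DecidableEq σ] (f : σ → MvPolynomial ι ℤ) [Fintype σ] (s : Finset σ) :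
    ∏ v, f v = (∏ v ∈ s, f v) * ∏ v : {v // v ∉ s}, f v.1 := by
  rw [← Finset.prod_mul_prod_compl s f]
  congr 1
  exact Finset.prod_subtype _ (fun v => Finset.mem_compl) f

/-- Variables in a prime split off their degrees, over the integers. -/
theorem varZ [DecidableEq σ] (hcore : CorePin) (hw : ∀ v, w v ≠ 0)
    {P : Ideal (MvPolynomial σ ℂ)} [P.IsPrime] (hP : IsHom w P) (s : Finset σ)
    (hs : ∀ v ∈ s, (X v : MvPolynomial σ ℂ) ∈ P) :
    ∃ J : Ideal (MvPolynomial {v // v ∉ s} ℂ),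
      lowZ w P = (∏ v ∈ s, linZ (w v)) * lowZ (fun v : {v // v ∉ s} => w v.1) J ∧
      codim P = s.card + codim J := by
  classical
  set w' : {v // v ∉ s} → ι →₀ ℕ := fun v => w v.1 with hw'
  let φ : MvPolynomial σ ℂ →ₐ[ℂ] MvPolynomial {v // v ∉ s} ℂ :=
    aeval fun v => if h : v ∈ s then 0 else X ⟨v, h⟩
  let ψ : MvPolynomial {v // v ∉ s} ℂ →ₐ[ℂ] MvPolynomial σ ℂ := rename Subtype.val
  have hψ : ∀ v, IsWeightedHomogeneous w (ψ (X v)) (w' v) := fun v => by
    show IsWeightedHomogeneous w (rename Subtype.val (X v)) (w' v)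
    rw [rename_X]
    exact isWeightedHomogeneous_X ℂ w v.1
  have hφ : ∀ v, IsWeightedHomogeneous w' (φ (X v)) (w v) := fun v => by
    simp only [φ, aeval_X]
    split
    · exact isWeightedHomogeneous_zero ℂ w' _
    · rename_i h
      exact isWeightedHomogeneous_X ℂ w' ⟨v, h⟩
  have hid : ∀ f, φ (ψ f) = f := fun f => by
    have : φ.comp ψ = AlgHom.id ℂ _ := algHom_ext fun v => by
      simp [φ, ψ, v.2]
    exact congrArg (fun F => F f) (congrArg DFunLike.coe this)
  have hret : ∀ v, ψ (φ (X v)) - X v ∈ P := fun v => by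
    simp only [φ, aeval_X]
    split
    · rename_i h
      rw [map_zero, zero_sub]
      exact P.neg_mem (hs v h)
    · show rename Subtype.val (X _) - X v ∈ P
      rw [rename_X, sub_self]
      exact P.zero_mem
  set J := P.comap ψ with hJdef
  have hJP : J.comap φ = P := retract_mem φ ψ P hret
  have hJp : J.IsPrime := Ideal.comap_isPrime ψ P
  have hJ : IsHom w' J := isHom_comap w' w ψ hψ hP
  have hser : ser w P = ser w' J := funext fun d => by
    show (hilb w P d : ℤ) = (hilb w' J d : ℤ)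
    rw [← hilb_comap w w' φ ψ hw hφ hψ hid J d, hJP]
  have hw'0 : ∀ v, w' v ≠ 0 := fun v => hw v.1
  obtain ⟨hK, -, -⟩ := hcore σ ι w hw
  obtain ⟨hK', -, hlow'⟩ := hcore {v // v ∉ s} ι w' hw'0
  have hden : den w = (∏ v ∈ s, (1 - monomial (w v) 1)) * den w' := den_split _ s
  have hk : kpoly w P = (∏ v ∈ s, (1 - monomial (w v) 1)) * kpoly w' J := by
    refine kpoly_unique w (hK P hP) ?_
    unfold IsK
    rw [MvPolynomial.coe_mul, hK' J hJ, hser, hden, MvPolynomial.coe_mul]
    ring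
  have hks : kshift w P = (∏ v ∈ s, (1 - sh (w v))) * kshift w' J := by
    rw [kshift, hk, map_mul, map_prod]
    simp only [map_sub, map_one]
    rfl
  have htr : tr P = tr J := by rw [← tr_comap φ ψ hid J, hJP]
  have hcard : Fintype.card {v // v ∉ s} + s.card = Fintype.card σ := by
    rw [Fintype.card_subtype_compl (fun v => v ∈ s), Fintype.card_coe]
    have := s.card_le_univ
    omega
  have hc : codim P = s.card + codim J := by
    rw [codim_eq, codim_eq, htr]
    have := tr_le J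
    omega
  refine ⟨J, ?_, hc⟩
  have hp := low_prod s w
  rw [lowZ, hks, hc, (Prod.component_mul _ _ _ (codim J) hp.1 (hlow' J hJp hJ).1).2, hp.2]
  rfl

end

/-- One hypersurface. -/
theorem cutExpandPin : CorePin → CutExpandPin := by
  intro hcore σ ι _ _ w hw p hp P g d hP hPh hg hgP
  have := hP
  obtain ⟨l, hl, h⟩ := expandZ w hcore hw hPh hg hgP
  refine ⟨l, hl, ?_⟩
  rw [cls, ← map_linZ, ← map_mul, h, map_list_sum, List.map_map]
  rfl

/-- One equation keeps a good prime. -/
theorem cutPin : CorePin → CutPin := by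
  intro hcore
  refine ⟨cutExpandPin hcore, ?_⟩
  intro σ ι _ _ w hw p hp P g d hPG hg hd
  obtain ⟨hP, hPh, hc⟩ := hPG
  by_cases hgP : g ∈ P
  · exact ⟨P, ⟨hP, hPh, hc⟩, le_rfl, hgP, Nat.le_succ _⟩
  · obtain ⟨l, hl, h⟩ := cutExpandPin hcore σ ι w hw p hp P g d hP hPh hg hgP
    have := Fact.mk hp
    have hne := mul_ne_zero hd hc
    rw [h] at hne
    obtain ⟨t, ht, ht0⟩ := List.exists_mem_ne_zero_of_sum_ne_zero hne
    obtain ⟨Q, hQ, rfl⟩ := List.mem_map.1 ht
    obtain ⟨a, b, c, e, f⟩ := hl Q hQ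
    exact ⟨Q, ⟨a, b, ht0⟩, c, e, f.le⟩

/-- Elimination of a variable whose degree vanishes modulo `p`. -/
theorem elim_var (hcore : CorePin) {σ ι : Type} [Fintype σ] [Fintype ι]
    (w : Option σ → ι →₀ ℕ) (hw : ∀ v, w v ≠ 0) (p : ℕ)
    (P : Ideal (MvPolynomial (Option σ) ℂ)) (q : MvPolynomial σ ℂ) (hPG : Good w p P)
    (hq : IsWeightedHomogeneous (fun v => w (some v)) q (w none)) (hd : lin p (w none) = 0) :
    ∃ Q : Ideal (MvPolynomial σ ℂ), Good (fun v => w (some v)) p Q ∧
      P.map (aeval (fun v : Option σ => v.elim q X) :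
        MvPolynomial (Option σ) ℂ →ₐ[ℂ] MvPolynomial σ ℂ) ≤ Q ∧
      codim Q ≤ codim P := by
  classical
  obtain ⟨hP, hPh, hc⟩ := hPG
  set w₁ : σ → ι →₀ ℕ := fun v => w (some v) with hw₁
  set d := w none with hd'
  set φ : MvPolynomial (Option σ) ℂ →ₐ[ℂ] MvPolynomial σ ℂ :=
    aeval (fun v : Option σ => v.elim q X) with hφdef
  let ψ : MvPolynomial σ ℂ →ₐ[ℂ] MvPolynomial (Option σ) ℂ := rename some
  have hψ : ∀ v, IsWeightedHomogeneous w (ψ (X v)) (w₁ v) := fun v => by
    show IsWeightedHomogeneous w (rename some (X v)) (w₁ v)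
    rw [rename_X]
    exact isWeightedHomogeneous_X ℂ w (some v)
  have hφ : ∀ v, IsWeightedHomogeneous w₁ (φ (X v)) (w v) := fun v => by
    rw [hφdef, aeval_X]
    cases v with
    | none => exact hq
    | some v => exact isWeightedHomogeneous_X ℂ w₁ v
  have hid : ∀ f, φ (ψ f) = f := fun f => by
    have : φ.comp ψ = AlgHom.id ℂ _ := algHom_ext fun v => by simp [φ, ψ]
    exact congrArg (fun F => F f) (congrArg DFunLike.coe this)
  set g : MvPolynomial (Option σ) ℂ := X none - rename some q with hgdef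
  have hg : IsWeightedHomogeneous w g d :=
    (weightedHomogeneousSubmodule ℂ w d).sub_mem (isWeightedHomogeneous_X ℂ w none)
      (Gr.rename_hom w₁ some (fun _ => rfl) hq)
  have hret : ∀ {I : Ideal (MvPolynomial (Option σ) ℂ)}, g ∈ I →
      ∀ v, ψ (φ (X v)) - X v ∈ I := by
    intro I hI v
    rw [hφdef, aeval_X]
    cases v with
    | none =>
      show rename some q - X none ∈ I
      rw [← neg_sub]
      exact I.neg_mem hI
    | some v =>
      show rename some (X v) - X (some v) ∈ I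
      rw [rename_X, sub_self]
      exact I.zero_mem
  have hw₁0 : ∀ v, w₁ v ≠ 0 := fun v => hw (some v)
  obtain ⟨hK, -, hlow⟩ := hcore (Option σ) ι w hw
  obtain ⟨hK₁, -, hlow₁⟩ := hcore σ ι w₁ hw₁0
  have hden : den w = (1 - monomial d 1) * den w₁ := Fintype.prod_option _
  have hk : ∀ {I : Ideal (MvPolynomial (Option σ) ℂ)}, IsHom w I → g ∈ I →
      (I.comap ψ).comap φ = I ∧ IsHom w₁ (I.comap ψ) ∧
        kpoly w I = (1 - monomial d 1) * kpoly w₁ (I.comap ψ) := by
    intro I hI hgI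
    have hJI : (I.comap ψ).comap φ = I := retract_mem φ ψ I (hret hgI)
    have hJ : IsHom w₁ (I.comap ψ) := isHom_comap w₁ w ψ hψ hI
    have hser : ser w I = ser w₁ (I.comap ψ) := funext fun e => by
      show (hilb w I e : ℤ) = (hilb w₁ (I.comap ψ) e : ℤ)
      rw [← hilb_comap w w₁ φ ψ hw hφ hψ hid (I.comap ψ) e, hJI]
    refine ⟨hJI, hJ, kpoly_unique w (hK I hI) ?_⟩
    unfold IsK
    rw [MvPolynomial.coe_mul, hK₁ _ hJ, hser, hden, MvPolynomial.coe_mul]
    ring
  have hcard : Fintype.card (Option σ) = Fintype.card σ + 1 := Fintype.card_option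
  by_cases hgP : g ∈ P
  · exfalso
    obtain ⟨hJP, hJ, hkP⟩ := hk hPh hgP
    have hJp : (P.comap ψ).IsPrime := Ideal.comap_isPrime ψ P
    have htr : tr P = tr (P.comap ψ) := by rw [← tr_comap φ ψ hid (P.comap ψ), hJP]
    have hcP : codim P = 1 + codim (P.comap ψ) := by
      rw [codim_eq, codim_eq, htr, hcard]
      have := tr_le (P.comap ψ)
      omega
    apply hc
    rw [cls, lowZ, kshift_eq_mul w w₁ hkP, hcP,
      (Prod.component_mul _ _ 1 _ (one_sub_sh d).1 (hlow₁ _ hJp hJ).1).2, (one_sub_sh d).2,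
      map_mul, map_linZ, hd, zero_mul]
  · set I := P ⊔ Ideal.span {g} with hI
    have hgI : g ∈ I := Ideal.mem_sup_right (Ideal.mem_span_singleton_self g)
    have hIh : IsHom w I := isHom_sup w hPh hg
    obtain ⟨hJI, hJ, hkI⟩ := hk hIh hgI
    rw [hI, kpoly_sup w hcore hw hPh hg hgP] at hkI
    have hne : (1 - monomial d 1 : MvPolynomial ι ℤ) ≠ 0 := fun h => by
      have := congrArg (coeff 0) h
      simp [coeff_monomial, hw none, hd'] at this
    have hkeq : kpoly w₁ (I.comap ψ) = kpoly w P := (mul_left_cancel₀ hne hkI).symm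
    obtain ⟨l, hl, hsum⟩ := low_expand w₁ hcore hw₁0 hJ (c := codim P) fun Q hQ hle => by
      have := hQ
      have hQ' : I ≤ Q.comap φ := hJI ▸ Ideal.comap_mono hle
      have h1 := tr_lt (le_trans le_sup_left hQ') (hQ' hgI) hgP
      rw [tr_comap φ ψ hid Q] at h1
      have := tr_le Q
      rw [codim_eq, codim_eq, hcard]
      omega
    have hkshift : kshift w₁ (I.comap ψ) = kshift w P := by rw [kshift, hkeq]; rfl
    rw [hkshift] at hsum
    have hne' : map (Int.castRingHom (ZMod p)) (l.map (lowZ w₁)).sum ≠ 0 := by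
      rw [← hsum]; exact hc
    rw [map_list_sum, List.map_map] at hne'
    obtain ⟨t, ht, ht0⟩ := List.exists_mem_ne_zero_of_sum_ne_zero hne'
    obtain ⟨Q, hQ, rfl⟩ := List.mem_map.1 ht
    obtain ⟨a, b, hJQ, e⟩ := hl Q hQ
    refine ⟨Q, ⟨a, b, ht0⟩, ?_, e.le⟩
    rw [Ideal.map_le_iff_le_comap]
    calc P ≤ I := le_sup_left
      _ = (I.comap ψ).comap φ := hJI.symm
      _ ≤ Q.comap φ := Ideal.comap_mono hJQ

/-- Variables in a prime, and elimination. -/
theorem varPin : CorePin → VarPin := by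
  classical
  intro hcore
  refine ⟨?_, ?_⟩
  · intro σ ι _ _ w hw p hp P s hP hPh hs
    have := hP
    obtain ⟨J, hJ, -⟩ := varZ w hcore hw hPh s hs
    exact ⟨cls (fun v : {v // v ∉ s} => w v.1) p J, by
      rw [cls, hJ, map_mul, map_prod]
      simp only [map_linZ]
      rfl⟩
  · intro σ ι _ _ w hw p hp P q hPG hq hd
    exact elim_var hcore w hw p P q hPG hq hd

/-! ### The bound in an extra coordinate -/

section HBound

variable {ι : Type}

theorem degreeOf_linZ (d : Option ι →₀ ℕ) (h : d none = 0) : (linZ d).degreeOf none = 0 := by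
  classical
  refine Nat.le_zero.1 ((degreeOf_sum_le none _ _).trans (Finset.sup_le fun i hi => ?_))
  have hne : none ≠ i := fun e => (Finsupp.mem_support_iff.1 hi) (e ▸ h)
  exact (degreeOf_C_mul_le _ none _).trans (degreeOf_X_of_ne hne).le

theorem linZ_ne_zero (d : ι →₀ ℕ) (h : d ≠ 0) : linZ d ≠ 0 := by
  classical
  intro h0
  have h1 : eval (fun _ => (1 : ℤ)) (linZ d) = 0 := by rw [h0, map_zero]
  have h2 : (0 : ℤ) < ∑ i ∈ d.support, (d i : ℤ) :=
    Finset.sum_pos (fun i hi => by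
      exact_mod_cast Nat.pos_of_ne_zero (Finsupp.mem_support_iff.1 hi))
      (Finsupp.support_nonempty_iff.2 h)
  simp only [linZ, Finsupp.sum, map_sum, map_mul, eval_C, eval_X, mul_one] at h1
  omega

theorem degreeOf_list_sum_le {R : Type} [CommSemiring R] (i : ι) (b : ℕ)
    (l : List (MvPolynomial ι R)) (h : ∀ f ∈ l, f.degreeOf i ≤ b) : l.sum.degreeOf i ≤ b := by
  induction l with
  | nil => simp
  | cons a l ih =>
    simp only [List.forall_mem_cons] at h
    rw [List.sum_cons]
    exact (degreeOf_add_le _ _ _).trans (max_le h.1 (ih h.2))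

variable {σ τ : Type} [Fintype σ] [Fintype τ] [Fintype ι] (w : σ ⊕ τ → Option ι →₀ ℕ)

theorem hboundZ (hcore : CorePin) (hw : ∀ v, w v ≠ 0) (h0 : ∀ v, w (Sum.inl v) none = 0) :
    ∀ n, ∀ T : Ideal (MvPolynomial (σ ⊕ τ) ℂ), T.IsPrime → IsHom w T →
      tr (T.comap (rename Sum.inl : MvPolynomial σ ℂ →ₐ[ℂ] MvPolynomial (σ ⊕ τ) ℂ)) = n →
      (lowZ w T).degreeOf none + codim (T.comap
        (rename Sum.inl : MvPolynomial σ ℂ →ₐ[ℂ] MvPolynomial (σ ⊕ τ) ℂ)) ≤ codim T := by
  classical
  intro n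
  induction n using Nat.strong_induction_on with
  | _ n ih =>
    intro T hT hTh hn
    have := hT
    set ρ : MvPolynomial σ ℂ →ₐ[ℂ] MvPolynomial (σ ⊕ τ) ℂ := rename Sum.inl with hρ
    by_cases hall : ∀ v : σ, (X (Sum.inl v) : MvPolynomial (σ ⊕ τ) ℂ) ∈ T
    · obtain ⟨J, hJ, hc⟩ := varZ w hcore hw hTh (Finset.univ.map Function.Embedding.inl)
        (fun v hv => by
          obtain ⟨u, -, rfl⟩ := Finset.mem_map.1 hv
          exact hall u)
      rw [Finset.card_map, Finset.card_univ] at hc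
      rw [hJ, Finset.prod_map]
      have h1 : (∏ v : σ, linZ (w (Function.Embedding.inl v))).degreeOf none = 0 := by
        refine Nat.le_zero.1 ((degreeOf_prod_le none _ _).trans (le_of_eq ?_))
        exact Finset.sum_eq_zero fun v _ => degreeOf_linZ _ (h0 v)
      have h2 := degreeOf_mul_le (none : Option ι)
        (∏ v : σ, linZ (w (Function.Embedding.inl v))) (lowZ (fun v : {v // v ∉
          Finset.univ.map (Function.Embedding.inl : σ ↪ σ ⊕ τ)} => w v.1) J)
      have h3 := (degreeOf_le_totalDegree (lowZ (fun v : {v // v ∉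
          Finset.univ.map (Function.Embedding.inl : σ ↪ σ ⊕ τ)} => w v.1) J) none).trans
        (homogeneousComponent_isHomogeneous _ _).totalDegree_le
      have h4 : codim (T.comap ρ) ≤ Fintype.card σ := Nat.sub_le _ _
      omega
    · push Not at hall
      obtain ⟨v, hv⟩ := hall
      have hgh : IsWeightedHomogeneous w (X (Sum.inl v) : MvPolynomial (σ ⊕ τ) ℂ)
          (w (Sum.inl v)) := isWeightedHomogeneous_X ℂ w _
      obtain ⟨l, hl, hsum⟩ := expandZ w hcore hw hTh hgh hv
      obtain ⟨-, -, hlow⟩ := hcore (σ ⊕ τ) (Option ι) w hw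
      have hT0 : lowZ w T ≠ 0 := fun h => by
        have := (hlow T hT hTh).2 (fun _ => 1) (fun _ => Int.one_pos)
        simp [h] at this
      have hmul : (linZ (w (Sum.inl v)) * lowZ w T).degreeOf none = (lowZ w T).degreeOf none := by
        rw [degreeOf_mul_eq (linZ_ne_zero _ (hw _)) hT0, degreeOf_linZ _ (h0 v), zero_add]
      have hQ : ∀ Q ∈ l, (lowZ w Q).degreeOf none + codim (T.comap ρ) ≤ codim T := by
        intro Q hQl
        obtain ⟨hQp, hQh, hTQ, hvQ, hcQ⟩ := hl Q hQl
        have := hQp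
        have hρv : ρ (X v) = X (Sum.inl v) := rename_X _ _
        have hv0 : (X v : MvPolynomial σ ℂ) ∉ T.comap ρ := by
          rw [Ideal.mem_comap, hρv]; exact hv
        have hvQ0 : (X v : MvPolynomial σ ℂ) ∈ Q.comap ρ := by
          rw [Ideal.mem_comap, hρv]; exact hvQ
        have : (T.comap ρ).IsPrime := Ideal.comap_isPrime ρ T
        have : (Q.comap ρ).IsPrime := Ideal.comap_isPrime ρ Q
        have hlt := tr_lt (Ideal.comap_mono hTQ) hvQ0 hv0
        have hcl := codim_lt (Ideal.comap_mono hTQ) hvQ0 hv0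
        have := ih _ (hn ▸ hlt) Q hQp hQh rfl
        omega
      have hle : (lowZ w T).degreeOf none ≤ codim T - codim (T.comap ρ) := by
        rw [← hmul, hsum]
        refine degreeOf_list_sum_le _ _ _ fun f hf => ?_
        obtain ⟨Q, hQl, rfl⟩ := List.mem_map.1 hf
        have := hQ Q hQl
        omega
      have hne : l ≠ [] := fun h => by
        apply mul_ne_zero (linZ_ne_zero _ (hw (Sum.inl v))) hT0
        rw [hsum, h]; rfl
      obtain ⟨Q, hQl⟩ := List.exists_mem_of_ne_nil l hne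
      have := hQ Q hQl
      omega

end HBound

/-- The bound on the degree in an extra grading coordinate. -/
theorem hBoundPin : CorePin → HBoundPin := by
  classical
  intro hcore σ τ ι _ _ _ w hw h0 h1 p hp T hT hTh
  refine le_trans (Nat.add_le_add_right ?_ _) (hboundZ w hcore hw h0 _ T hT hTh rfl)
  rw [cls, degreeOf_eq_sup, degreeOf_eq_sup]
  exact Finset.sup_mono (support_map_subset _ _)

end Vale.Agent.P199.K.Cut
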