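import Vale.Agent.P199.K.HS.CutTools

/-!
P199: existence of numerators of Hilbert series and their exact sequences.
-/

namespace Vale.Agent.P199.K.Core

open MvPolynomial
open scoped BigOperators

variable {σ ι : Type} (w : σ → ι →₀ ℕ)

/-- The colon ideal by one element. -/
def col (I : Ideal (MvPolynomial σ ℂ)) (g : MvPolynomial σ ℂ) : Ideal (MvPolynomial σ ℂ) where
  carrier := {h | g * h ∈ I}
  add_mem' ha hb := by
    simp only [Set.mem_ofPred_eq, mul_add]
    exact I.add_mem ha hb
  zero_mem' := by simp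
  smul_mem' c h hh := by
    simp only [Set.mem_ofPred_eq, smul_eq_mul] at hh ⊢
    rw [mul_left_comm]
    exact I.mul_mem_left c hh

theorem mem_col {I : Ideal (MvPolynomial σ ℂ)} {g h : MvPolynomial σ ℂ} :
    h ∈ col I g ↔ g * h ∈ I := Iff.rfl

theorem le_col (I : Ideal (MvPolynomial σ ℂ)) (g : MvPolynomial σ ℂ) : I ≤ col I g :=
  fun _ hh => I.mul_mem_left g hh

theorem col_ne_top {I : Ideal (MvPolynomial σ ℂ)} {g : MvPolynomial σ ℂ} (hg : g ∉ I) :
    col I g ≠ ⊤ := by
  rw [Ideal.ne_top_iff_one, mem_col, mul_one]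
  exact hg

theorem col_eq_of_prime {P : Ideal (MvPolynomial σ ℂ)} [P.IsPrime] {g : MvPolynomial σ ℂ}
    (hg : g ∉ P) : col P g = P :=
  le_antisymm (fun _ hh => (Ideal.IsPrime.mem_or_mem ‹_› hh).resolve_left hg) (le_col P g)

theorem isHom_col {I : Ideal (MvPolynomial σ ℂ)} (hI : IsHom w I) {g : MvPolynomial σ ℂ}
    {e : ι →₀ ℕ} (hg : IsWeightedHomogeneous w g e) : IsHom w (col I g) := by
  classical
  intro h hh d
  have h1 := hI _ (show g * h ∈ I from hh) (e + d)
  rwa [Cut.comp_mul w hg, if_pos le_self_add, add_tsub_cancel_left] at h1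

variable [Fintype σ]

open Classical in
theorem hilb_split (hw : ∀ v, w v ≠ 0) {I : Ideal (MvPolynomial σ ℂ)} (hI : IsHom w I)
    {g : MvPolynomial σ ℂ} {d : ι →₀ ℕ} (hg : IsWeightedHomogeneous w g d) (e : ι →₀ ℕ) :
    hilb w (I ⊔ Ideal.span {g}) e + (if d ≤ e then hilb w (col I g) (e - d) else 0) =
      hilb w I e := by
  have := Gr.finite_piece w hw e
  set S := weightedHomogeneousSubmodule ℂ w e
  set KP : Submodule ℂ S := (I.restrictScalars ℂ).comap S.subtype with hKP
  set KI : Submodule ℂ S := ((I ⊔ Ideal.span {g}).restrictScalars ℂ).comap S.subtype with hKI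
  have hle : KP ≤ KI := Submodule.comap_mono fun x hx => Ideal.mem_sup_left hx
  have hsplit : Module.finrank ℂ (S ⧸ KI) + Module.finrank ℂ (KI.map KP.mkQ) =
      Module.finrank ℂ (S ⧸ KP) := by
    rw [← (Submodule.quotientQuotientEquivQuotient KP KI hle).finrank_eq]
    exact Submodule.finrank_quotient_add_finrank _
  unfold hilb
  rw [← hKP, ← hKI, ← hsplit]
  congr 1
  by_cases hde : d ≤ e
  · rw [if_pos hde]
    have hmem : ∀ x : weightedHomogeneousSubmodule ℂ w (e - d), g * x.1 ∈ S := fun x => by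
      have := hg.mul x.2
      rwa [add_tsub_cancel_of_le hde] at this
    let μ₀ : weightedHomogeneousSubmodule ℂ w (e - d) →ₗ[ℂ] S :=
      LinearMap.codRestrict S ((LinearMap.mulLeft ℂ g).comp
        (weightedHomogeneousSubmodule ℂ w (e - d)).subtype) hmem
    let μ := KP.mkQ.comp μ₀
    have hker : LinearMap.ker μ = ((col I g).restrictScalars ℂ).comap
        (weightedHomogeneousSubmodule ℂ w (e - d)).subtype := by
      ext x
      rw [LinearMap.mem_ker]
      exact Submodule.Quotient.mk_eq_zero _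
    have hrange : LinearMap.range μ = KI.map KP.mkQ := by
      refine le_antisymm ?_ ?_
      · rintro _ ⟨x, rfl⟩
        exact ⟨μ₀ x, Ideal.mem_sup_right (Ideal.mul_mem_right _ _
          (Ideal.mem_span_singleton_self g)), rfl⟩
      · rintro _ ⟨⟨f, hf⟩, hfI, rfl⟩
        obtain ⟨a, ha, h | ⟨-, h, hh, he⟩⟩ := Cut.comp_mem_sup w hI hg hfI e
        · refine ⟨0, ?_⟩
          rw [map_zero]
          refine ((Submodule.Quotient.mk_eq_zero _).2 ?_).symm
          show f ∈ I
          rw [← weightedHomogeneousComponent_eq_self (w := w) hf]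
          exact h ▸ ha
        · refine ⟨⟨h, hh⟩, (Submodule.Quotient.eq KP).2 ?_⟩
          show g * h - f ∈ I
          rw [show g * h - f = -a by
            have h' : f = a + g * h :=
              (weightedHomogeneousComponent_eq_self (w := w) hf).symm.trans he
            rw [h']; ring]
          exact I.neg_mem ha
    rw [← hrange, ← hker]
    exact (LinearMap.quotKerEquivRange μ).finrank_eq
  · rw [if_neg hde]
    have : KI.map KP.mkQ = ⊥ := by
      rw [eq_bot_iff]
      rintro _ ⟨⟨f, hf⟩, hfI, rfl⟩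
      obtain ⟨a, ha, h | ⟨hd', -⟩⟩ := Cut.comp_mem_sup w hI hg hfI e
      · refine (Submodule.Quotient.mk_eq_zero _).2 ?_
        show f ∈ I
        rw [← weightedHomogeneousComponent_eq_self (w := w) hf]
        exact h ▸ ha
      · exact absurd hd' hde
    rw [this, finrank_bot]

/-- The exact sequence of a homogeneous equation, on series. -/
theorem ser_split (hw : ∀ v, w v ≠ 0) {I : Ideal (MvPolynomial σ ℂ)} (hI : IsHom w I)
    {g : MvPolynomial σ ℂ} {d : ι →₀ ℕ} (hg : IsWeightedHomogeneous w g d) :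
    ser w I = ser w (I ⊔ Ideal.span {g}) + MvPowerSeries.monomial d 1 * ser w (col I g) := by
  classical
  refine MvPowerSeries.ext fun e => ?_
  rw [map_add, MvPowerSeries.coeff_monomial_mul]
  show (hilb w I e : ℤ) = (hilb w _ e : ℤ) + if d ≤ e then 1 * (hilb w _ (e - d) : ℤ) else 0
  rw [← hilb_split w hw hI hg e]
  push_cast
  split <;> simp

omit [Fintype σ] in
theorem ser_top : ser w (⊤ : Ideal (MvPolynomial σ ℂ)) = 0 := by
  refine MvPowerSeries.ext fun e => ?_
  show (hilb w ⊤ e : ℤ) = 0
  unfold hilb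
  rw [Submodule.restrictScalars_top, Submodule.comap_top]
  have : Subsingleton (weightedHomogeneousSubmodule ℂ w e ⧸
      (⊤ : Submodule ℂ (weightedHomogeneousSubmodule ℂ w e))) :=
    Submodule.Quotient.subsingleton_iff.2 rfl
  rw [Module.finrank_zero_of_subsingleton, Nat.cast_zero]

omit [Fintype σ] in
theorem hilb_irrelevant {P : Ideal (MvPolynomial σ ℂ)} (hP : P ≠ ⊤)
    (hX : ∀ v, (X v : MvPolynomial σ ℂ) ∈ P) (e : ι →₀ ℕ) [Decidable (e = 0)] :
    hilb w P e = if e = 0 then 1 else 0 := by
  classical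
  have hmon : ∀ m : σ →₀ ℕ, m ≠ 0 → ∀ c : ℂ, monomial m c ∈ P := by
    intro m hm c
    obtain ⟨v, hv⟩ := Finsupp.ne_iff.1 hm
    simp only [Finsupp.coe_zero, Pi.zero_apply] at hv
    have hle : Finsupp.single v 1 ≤ m := by
      rw [Finsupp.single_le_iff]
      exact Nat.pos_of_ne_zero hv
    obtain ⟨m', rfl⟩ := exists_add_of_le hle
    rw [show monomial (Finsupp.single v 1 + m') c = X v * monomial m' c by
      rw [show (X v : MvPolynomial σ ℂ) = monomial (Finsupp.single v 1) 1 from rfl, monomial_mul,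
        one_mul]]
    exact P.mul_mem_right _ (hX v)
  have hC : ∀ f : MvPolynomial σ ℂ, f - C (coeff 0 f) ∈ P := by
    intro f
    induction f using MvPolynomial.induction_on' with
    | monomial m c =>
      by_cases hm : m = 0
      · subst hm; simp
      · rw [coeff_monomial, if_neg hm, map_zero, sub_zero]
        exact hmon m hm c
    | add p q hp hq =>
      rw [coeff_add, map_add, add_sub_add_comm]
      exact P.add_mem hp hq
  unfold hilb
  set S := weightedHomogeneousSubmodule ℂ w e
  by_cases he : e = 0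
  · subst he
    rw [if_pos rfl]
    let ev : S →ₗ[ℂ] ℂ := (lcoeff ℂ 0).comp S.subtype
    have hker : LinearMap.ker ev = (P.restrictScalars ℂ).comap S.subtype := by
      ext x
      show coeff 0 (x : MvPolynomial σ ℂ) = 0 ↔ (x : MvPolynomial σ ℂ) ∈ P
      constructor
      · intro h
        have := hC x.1
        rwa [h, map_zero, sub_zero] at this
      · intro h
        by_contra hne
        have h2 : C (coeff 0 (x : MvPolynomial σ ℂ)) ∈ P := by
          have := P.sub_mem h (hC x.1)
          rwa [sub_sub_cancel] at this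
        exact hP (Ideal.eq_top_of_isUnit_mem _ h2 ((Ne.isUnit hne).map C))
    have hsurj : Function.Surjective ev := fun c =>
      ⟨⟨C c, isWeightedHomogeneous_C w c⟩, by show coeff 0 (C c) = c; simp⟩
    rw [← hker, (ev.quotKerEquivOfSurjective hsurj).finrank_eq, Module.finrank_self]
  · rw [if_neg he]
    have htop : (P.restrictScalars ℂ).comap S.subtype = ⊤ := by
      rw [eq_top_iff]
      intro x _
      show (x : MvPolynomial σ ℂ) ∈ P
      have h0 : coeff 0 (x : MvPolynomial σ ℂ) = 0 := by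
        by_contra hne
        exact he ((x.2 hne).symm.trans (map_zero _))
      have := hC x.1
      rwa [h0, map_zero, sub_zero] at this
    rw [htop]
    have : Subsingleton (S ⧸ (⊤ : Submodule ℂ S)) :=
      Submodule.Quotient.subsingleton_iff.2 rfl
    exact Module.finrank_zero_of_subsingleton

omit [Fintype σ] in
theorem ser_irrelevant {P : Ideal (MvPolynomial σ ℂ)} (hP : P ≠ ⊤)
    (hX : ∀ v, (X v : MvPolynomial σ ℂ) ∈ P) : ser w P = 1 := by
  classical
  refine MvPowerSeries.ext fun e => ?_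
  show (hilb w P e : ℤ) = _
  rw [hilb_irrelevant w hP hX e, MvPowerSeries.coeff_one]
  split <;> simp

/-! ### Prime colon ideals -/

omit [Fintype σ] in
/-- A homogeneous ideal that is prime on homogeneous elements is prime. -/
theorem isPrime_of_hom [Fintype ι] {J : Ideal (MvPolynomial σ ℂ)} (hJ : IsHom w J) (hne : J ≠ ⊤)
    (h : ∀ b c d d', IsWeightedHomogeneous w b d → IsWeightedHomogeneous w c d' → b * c ∈ J →
      b ∈ J ∨ c ∈ J) : J.IsPrime := by
  classical
  let _ : LinearOrder ι := LinearOrder.lift' (Fintype.equivFin ι) (Fintype.equivFin ι).injective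
  let w' : σ → Lex (ι →₀ ℕ) := fun v => toLex (w v)
  have hwt : ∀ m : σ →₀ ℕ, Finsupp.weight w' m = toLex (Finsupp.weight w m) := by
    intro m
    induction m using Finsupp.induction_linear with
    | zero => simp
    | add f g hf hg => rw [map_add, map_add, hf, hg]; rfl
    | single v n => rw [Finsupp.weight_single, Finsupp.weight_single]; rfl
  have hiff : ∀ (f : MvPolynomial σ ℂ) (d : ι →₀ ℕ), IsWeightedHomogeneous w' f (toLex d) ↔ IsWeightedHomogeneous w f d :=
    fun f d => ⟨fun hf m hm => toLex.injective ((hwt m).symm.trans (hf hm)),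
      fun hf m hm => (hwt m).trans (congrArg toLex (hf hm))⟩
  have hcomp : ∀ (f : MvPolynomial σ ℂ) (d : ι →₀ ℕ), weightedHomogeneousComponent w' (toLex d) f =
      weightedHomogeneousComponent w d f := by
    intro f d
    ext m
    rw [coeff_weightedHomogeneousComponent, coeff_weightedHomogeneousComponent, hwt]
    simp
  let _ : DecidableEq (Lex (ι →₀ ℕ)) := fun a b => LinearOrder.toDecidableEq a b
  let _ := weightedGradedAlgebra ℂ w'
  have hhom : J.IsHomogeneous (weightedHomogeneousSubmodule ℂ w') := by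
    intro i f hf
    show ((weightedDecomposition ℂ w').decompose' f i : MvPolynomial σ ℂ) ∈ J
    rw [weightedDecomposition.decompose'_apply, ← toLex_ofLex i, hcomp]
    exact hJ f hf _
  refine hhom.isPrime_of_homogeneous_mem_or_mem hne ?_
  rintro x y ⟨i, hi⟩ ⟨j, hj⟩ hxy
  exact h x y (ofLex i) (ofLex j) ((hiff x (ofLex i)).1 hi) ((hiff y (ofLex j)).1 hj) hxy

/-- Some colon ideal by a homogeneous element is prime. -/
theorem exists_prime_col [Fintype ι] {I : Ideal (MvPolynomial σ ℂ)} (hI : IsHom w I)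
    (hne : I ≠ ⊤) :
    ∃ a d, IsWeightedHomogeneous w a d ∧ a ∉ I ∧ (col I a).IsPrime := by
  classical
  set S : Set (Ideal (MvPolynomial σ ℂ)) :=
    {J | ∃ a d, IsWeightedHomogeneous w a d ∧ a ∉ I ∧ J = col I a} with hS
  have hSne : S.Nonempty :=
    ⟨col I 1, 1, 0, isWeightedHomogeneous_one ℂ w, (Ideal.ne_top_iff_one I).1 hne, rfl⟩
  obtain ⟨J, ⟨a, d, ha, haI, rfl⟩, hmax⟩ :=
    (wellFounded_gt : WellFounded ((· > ·) : Ideal (MvPolynomial σ ℂ) → _ → Prop)).has_min S hSne
  refine ⟨a, d, ha, haI, isPrime_of_hom w (isHom_col w hI ha) (col_ne_top haI) ?_⟩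
  intro b c e e' hb hc hbc
  by_contra! hn
  refine hmax (col I (a * b)) ⟨a * b, d + e, ha.mul hb, hn.1, rfl⟩ (lt_of_le_of_ne (fun f hf => ?_) ?_)
  · rw [mem_col] at hf ⊢
    rw [mul_right_comm]
    exact I.mul_mem_right b hf
  · intro he
    refine hn.2 ?_
    rw [he, mem_col, mul_assoc]
    exact hbc

/-! ### Numerators -/

theorem den_eq : (den w : MvPowerSeries ι ℤ) =
    ∏ v, (1 - MvPowerSeries.monomial (w v) (1 : ℤ)) := by
  rw [← MvPolynomial.coeToMvPowerSeries.ringHom_apply, den, map_prod]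
  exact Finset.prod_congr rfl fun v _ => by
    rw [map_sub, map_one, MvPolynomial.coeToMvPowerSeries.ringHom_apply, coe_monomial]

theorem exists_isK [Fintype ι] (hw : ∀ v, w v ≠ 0) {I : Ideal (MvPolynomial σ ℂ)}
    (hI : IsHom w I) : ∃ K, IsK w I K := by
  classical
  let R : Subring (MvPowerSeries ι ℤ) := (MvPolynomial.coeToMvPowerSeries.ringHom).range
  have hmonR : ∀ e : ι →₀ ℕ, MvPowerSeries.monomial e (1 : ℤ) ∈ R := fun e =>
    ⟨monomial e 1, coe_monomial e 1⟩
  let fac : σ → MvPowerSeries ι ℤ := fun v => 1 - MvPowerSeries.monomial (w v) 1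
  have hfac : ∀ s : Finset σ, ∏ v ∈ s, fac v ∈ R := fun s =>
    prod_mem fun v _ => sub_mem (one_mem R) (hmonR (w v))
  let out : Ideal (MvPolynomial σ ℂ) → Finset σ := fun J =>
    Finset.univ.filter fun v => (X v : MvPolynomial σ ℂ) ∉ J
  have hmono : ∀ J : Ideal (MvPolynomial σ ℂ), ∀ s, out J ⊆ s →
      ser w J * ∏ v ∈ out J, fac v ∈ R → ser w J * ∏ v ∈ s, fac v ∈ R := by
    intro J s hs hJ
    rw [← Finset.prod_sdiff hs, mul_left_comm]
    exact mul_mem (hfac _) hJ
  have hsub : ∀ J J' : Ideal (MvPolynomial σ ℂ), J ≤ J' → out J' ⊆ out J := fun J J' hle v hv => by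
    simp only [out, Finset.mem_filter, Finset.mem_univ, true_and] at hv ⊢
    exact fun h => hv (hle h)
  have key : ∀ J : Ideal (MvPolynomial σ ℂ), IsHom w J →
      ser w J * ∏ v ∈ out J, fac v ∈ R := by
    intro J
    induction J using (wellFounded_gt : WellFounded
      ((· > ·) : Ideal (MvPolynomial σ ℂ) → _ → Prop)).induction with
    | _ J ih =>
    intro hJ
    by_cases hne : J = ⊤
    · subst hne
      rw [ser_top, zero_mul]
      exact zero_mem R
    by_cases hP : J.IsPrime
    · by_cases hX : ∀ v, (X v : MvPolynomial σ ℂ) ∈ J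
      · rw [ser_irrelevant w hne hX, one_mul]
        exact hfac _
      push Not at hX
      obtain ⟨x, hx⟩ := hX
      have hxh : IsWeightedHomogeneous w (X x : MvPolynomial σ ℂ) (w x) :=
        isWeightedHomogeneous_X ℂ w x
      have hs := ser_split w hw hJ hxh
      rw [col_eq_of_prime hx] at hs
      have hlt : J < J ⊔ Ideal.span {(X x : MvPolynomial σ ℂ)} :=
        lt_of_le_of_ne le_sup_left fun he => hx (by
          rw [he]; exact Ideal.mem_sup_right (Ideal.mem_span_singleton_self _))
      have hxJ : x ∈ out J := by simp [out, hx]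
      have h1 := hmono _ ((out J).erase x) (fun v hv => Finset.mem_erase.2 ⟨fun h => by
          subst h
          simp only [out, Finset.mem_filter] at hv
          exact hv.2 (Ideal.mem_sup_right (Ideal.mem_span_singleton_self _)),
        hsub _ _ le_sup_left hv⟩) (ih _ hlt (Cut.isHom_sup w hJ hxh))
      have h2 : ser w J * ∏ v ∈ out J, fac v =
          ser w (J ⊔ Ideal.span {(X x : MvPolynomial σ ℂ)}) * ∏ v ∈ (out J).erase x, fac v := by
        rw [← Finset.mul_prod_erase _ _ hxJ, ← mul_assoc]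
        congr 1
        calc ser w J * fac x = ser w J - MvPowerSeries.monomial (w x) 1 * ser w J := by
              show ser w J * (1 - _) = _
              ring
          _ = _ := by
              conv_lhs => arg 1; rw [hs]
              ring
      rw [h2]
      exact h1
    obtain ⟨a, d, ha, haJ, hp⟩ := exists_prime_col w hJ hne
    have hl1 : J < J ⊔ Ideal.span {a} := lt_of_le_of_ne le_sup_left fun he => haJ (by
      rw [he]; exact Ideal.mem_sup_right (Ideal.mem_span_singleton_self _))
    have hl2 : J < col J a := lt_of_le_of_ne (le_col J a) fun he => hP (he ▸ hp)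
    rw [ser_split w hw hJ ha, add_mul, mul_assoc]
    exact add_mem (hmono _ _ (hsub _ _ le_sup_left) (ih _ hl1 (Cut.isHom_sup w hJ ha)))
      (mul_mem (hmonR d) (hmono _ _ (hsub _ _ (le_col J a)) (ih _ hl2 (isHom_col w hJ ha))))
  obtain ⟨K, hK⟩ := hmono I Finset.univ (Finset.subset_univ _) (key I hI)
  refine ⟨K, ?_⟩
  unfold IsK
  rw [den_eq]
  exact hK

theorem isK_kpoly [Fintype ι] (hw : ∀ v, w v ≠ 0) {I : Ideal (MvPolynomial σ ℂ)}
    (hI : IsHom w I) : IsK w I (kpoly w I) := by
  classical
  have h := exists_isK w hw hI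
  rw [kpoly, dif_pos h]
  exact h.choose_spec

theorem kpoly_top [Fintype ι] (hw : ∀ v, w v ≠ 0) :
    kpoly w (⊤ : Ideal (MvPolynomial σ ℂ)) = 0 := by
  refine Cut.kpoly_unique w (isK_kpoly w hw (fun _ _ _ => Submodule.mem_top)) ?_
  show _ = ser w ⊤ * _
  rw [ser_top, zero_mul, MvPolynomial.coe_zero]

theorem kpoly_irrelevant [Fintype ι] (hw : ∀ v, w v ≠ 0) {P : Ideal (MvPolynomial σ ℂ)}
    (hP : P ≠ ⊤) (hPh : IsHom w P) (hX : ∀ v, (X v : MvPolynomial σ ℂ) ∈ P) :
    kpoly w P = den w := by
  refine Cut.kpoly_unique w (isK_kpoly w hw hPh) ?_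
  show _ = ser w P * _
  rw [ser_irrelevant w hP hX, one_mul]

/-- The exact sequence of a homogeneous equation, on numerators. -/
theorem kpoly_split [Fintype ι] (hw : ∀ v, w v ≠ 0) {I : Ideal (MvPolynomial σ ℂ)}
    (hI : IsHom w I) {g : MvPolynomial σ ℂ} {d : ι →₀ ℕ} (hg : IsWeightedHomogeneous w g d) :
    kpoly w I = kpoly w (I ⊔ Ideal.span {g}) + monomial d 1 * kpoly w (col I g) := by
  refine Cut.kpoly_unique w (isK_kpoly w hw hI) ?_
  unfold IsK
  rw [MvPolynomial.coe_add, MvPolynomial.coe_mul, coe_monomial,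
    isK_kpoly w hw (Cut.isHom_sup w hI hg), isK_kpoly w hw (isHom_col w hI hg),
    ser_split w hw hI hg]
  ring

end Vale.Agent.P199.K.Core
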