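import Vale.Agent.P199.K.HS.Exact

/-!
P199: prime filtrations and the vanishing of numerators below the codimension.
-/

namespace Vale.Agent.P199.K.Core

open MvPolynomial
open scoped BigOperators

variable {σ ι : Type} [Fintype σ] [Fintype ι] {w : σ → ι →₀ ℕ}

/-- The prime filtration of a homogeneous ideal. -/
theorem exists_filtration (hw : ∀ v, w v ≠ 0) {I : Ideal (MvPolynomial σ ℂ)} (hI : IsHom w I) :
    ∃ l : List ((ι →₀ ℕ) × Ideal (MvPolynomial σ ℂ)),
      (∀ x ∈ l, x.2.IsPrime ∧ IsHom w x.2 ∧ I ≤ x.2) ∧ (l.map Prod.snd).prod ≤ I ∧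
      kpoly w I = (l.map fun x => monomial x.1 (1 : ℤ) * kpoly w x.2).sum := by
  classical
  induction I using (wellFounded_gt : WellFounded
    ((· > ·) : Ideal (MvPolynomial σ ℂ) → _ → Prop)).induction with
  | _ I ih =>
  by_cases hne : I = ⊤
  · subst hne
    exact ⟨[], by simp, le_top, by simp [kpoly_top w hw]⟩
  by_cases hP : I.IsPrime
  · exact ⟨[(0, I)], by simpa using ⟨hP, hI⟩, by simp, by simp⟩
  obtain ⟨a, d, ha, haI, hp⟩ := exists_prime_col w hI hne
  have hlt : I < I ⊔ Ideal.span {a} := lt_of_le_of_ne le_sup_left fun he => haI (by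
    rw [he]; exact Ideal.mem_sup_right (Ideal.mem_span_singleton_self _))
  obtain ⟨l, hl, hprod, hsum⟩ := ih _ hlt (Cut.isHom_sup w hI ha)
  refine ⟨(d, col I a) :: l, ?_, ?_, ?_⟩
  · simp only [List.mem_cons, forall_eq_or_imp]
    exact ⟨⟨hp, isHom_col w hI ha, le_col I a⟩,
      fun x hx => ⟨(hl x hx).1, (hl x hx).2.1, le_sup_left.trans (hl x hx).2.2⟩⟩
  · rw [List.map_cons, List.prod_cons, Ideal.mul_le]
    intro f hf g hg
    obtain ⟨i, hi, b, hb, rfl⟩ := Submodule.mem_sup.1 (hprod hg)
    obtain ⟨c, rfl⟩ := Ideal.mem_span_singleton'.1 hb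
    rw [mul_add]
    refine I.add_mem (I.mul_mem_left _ hi) ?_
    rw [show f * (c * a) = c * (a * f) by ring]
    exact I.mul_mem_left _ hf
  · rw [kpoly_split w hw hI ha, hsum, List.map_cons, List.sum_cons, add_comm]

omit [Fintype ι] in
theorem kshift_add_list (l : List ((ι →₀ ℕ) × Ideal (MvPolynomial σ ℂ)))
    {J : Ideal (MvPolynomial σ ℂ)}
    (h : kpoly w J = (l.map fun x => monomial x.1 (1 : ℤ) * kpoly w x.2).sum) :
    kshift w J = (l.map fun x => Cut.sh x.1 * kshift w x.2).sum := by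
  simp only [kshift, Cut.sh, h, map_list_sum, List.map_map, Function.comp_def, map_mul]

/-- Cutting by a variable, on shifted numerators. -/
theorem kshift_cut (hw : ∀ v, w v ≠ 0) {P : Ideal (MvPolynomial σ ℂ)} [P.IsPrime]
    (hP : IsHom w P) {x : σ} (hx : (X x : MvPolynomial σ ℂ) ∉ P) :
    (1 - Cut.sh (w x)) * kshift w P = kshift w (P ⊔ Ideal.span {(X x : MvPolynomial σ ℂ)}) := by
  have h := kpoly_split w hw hP (isWeightedHomogeneous_X ℂ w x)
  rw [col_eq_of_prime hx] at h
  have h2 : kpoly w (P ⊔ Ideal.span {(X x : MvPolynomial σ ℂ)}) =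
      (1 - monomial (w x) 1) * kpoly w P := by linear_combination -h
  simp only [kshift, Cut.sh, h2, map_mul, map_sub, map_one]

/-- The numerator of a prime has no part below its codimension. -/
theorem low_zero (hw : ∀ v, w v ≠ 0) {P : Ideal (MvPolynomial σ ℂ)} (hPp : P.IsPrime)
    (hP : IsHom w P) : ∀ j < codim P, homogeneousComponent j (kshift w P) = 0 := by
  classical
  induction P using (wellFounded_gt : WellFounded
    ((· > ·) : Ideal (MvPolynomial σ ℂ) → _ → Prop)).induction with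
  | _ P ih =>
  intro j hj
  by_cases hX : ∀ v, (X v : MvPolynomial σ ℂ) ∈ P
  · have hk : kshift w P = ∏ v ∈ (Finset.univ : Finset σ), (1 - Cut.sh (w v)) := by
      simp only [kshift, Cut.sh, kpoly_irrelevant w hw hPp.ne_top hP hX, den, map_prod, map_sub,
        map_one]
    rw [hk]
    refine (Cut.low_prod Finset.univ w).1 j (hj.trans_le ?_)
    rw [Finset.card_univ]
    exact Nat.sub_le _ _
  push Not at hX
  obtain ⟨x, hx⟩ := hX
  have := hPp
  have hxh := isWeightedHomogeneous_X ℂ w x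
  set J := P ⊔ Ideal.span {(X x : MvPolynomial σ ℂ)} with hJdef
  have hxJ : (X x : MvPolynomial σ ℂ) ∈ J :=
    Ideal.mem_sup_right (Ideal.mem_span_singleton_self _)
  obtain ⟨l, hl, -, hsum⟩ := exists_filtration hw (Cut.isHom_sup w hP hxh (g := X x))
  have hJ0 : ∀ i < codim P + 1, homogeneousComponent i (kshift w J) = 0 := by
    intro i hi
    rw [kshift_add_list l hsum, map_list_sum, List.map_map]
    refine List.sum_eq_zero fun y hy => ?_
    obtain ⟨z, hz, rfl⟩ := List.mem_map.1 hy
    obtain ⟨hzP, hzH, hzJ⟩ := hl z hz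
    have hle : P ≤ z.2 := le_sup_left.trans hzJ
    have hc : codim P + 1 ≤ codim z.2 := by
      have := hzP
      exact Cut.codim_lt hle (hzJ hxJ) hx
    have hgt : P < z.2 := lt_of_le_of_ne hle fun he => hx (he ▸ hzJ hxJ)
    have hm := Prod.component_mul (Cut.sh z.1) (kshift w z.2) 0 (codim z.2)
      (fun k hk => absurd hk (Nat.not_lt_zero k)) (ih _ hgt hzP hzH)
    exact hm.1 i (by omega)
  induction j using Nat.strong_induction_on with
  | _ j ihj =>
  have h1 : homogeneousComponent 1 (1 : MvPolynomial ι ℤ) = 0 :=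
    (homogeneousComponent_of_mem (isHomogeneous_one ι ℤ)).trans (if_neg one_ne_zero)
  have hm := Prod.component_mul (1 - Cut.sh (w x)) (kshift w P) 1 j (fun k hk => by
      obtain rfl : k = 0 := by omega
      rw [map_sub, (Cut.sh_low (w x)).1]
      simp [homogeneousComponent_zero])
    (fun k hk => ihj k hk (hk.trans hj))
  have h2 := hm.2
  rw [kshift_cut hw hP hx, hJ0 _ (by omega), map_sub, (Cut.sh_low (w x)).2, h1, zero_sub,
    neg_neg] at h2
  rcases mul_eq_zero.1 h2.symm with h | h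
  · exfalso
    obtain ⟨i, hi⟩ := Finsupp.ne_iff.1 (hw x)
    refine hi ?_
    have h3 := congrArg (coeff (Finsupp.single i 1)) h
    simp only [Cut.linZ, Finsupp.sum, coeff_sum, coeff_C_mul, coeff_X, coeff_zero,
      mul_ite, mul_one, mul_zero, Finsupp.single_left_inj one_ne_zero, Finset.sum_ite_eq'] at h3
    simpa using h3
  · exact h

end Vale.Agent.P199.K.Core
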