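import Vale.Agent.P199.K.HS.CutTools

/-!
P199: renaming the variables changes nothing.
-/

namespace Vale.Agent.P199.K.Core

open MvPolynomial
open scoped BigOperators

/-- Renaming the variables keeps good primes and their codimension. -/
theorem renamePin : RenamePin := by
  intro σ τ ι _ _ _ e w p P hP
  obtain ⟨hprime, hhom, hcls⟩ := hP
  set φ : MvPolynomial σ ℂ →ₐ[ℂ] MvPolynomial τ ℂ := rename e
  set ψ : MvPolynomial τ ℂ →ₐ[ℂ] MvPolynomial σ ℂ := rename e.symm
  have hψφ : ∀ f, ψ (φ f) = f := fun f => by simp [φ, ψ, rename_rename]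
  have hφψ : ∀ f, φ (ψ f) = f := fun f => by simp [φ, ψ, rename_rename]
  have hmap : P.map φ = P.comap ψ := by
    refine le_antisymm (Ideal.map_le_iff_le_comap.2 fun f hf => ?_) fun f hf => ?_
    · show ψ (φ f) ∈ P
      rwa [hψφ]
    · rw [← hφψ f]
      exact Ideal.mem_map_of_mem φ hf
  rw [hmap]
  have hφh : ∀ v, IsWeightedHomogeneous w (φ (X v)) (w (e v)) := fun v => by
    simp only [φ, rename_X]; exact isWeightedHomogeneous_X ℂ w _
  have hψh : ∀ v, IsWeightedHomogeneous (fun u => w (e u)) (ψ (X v)) (w v) := fun v => by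
    have h := isWeightedHomogeneous_X ℂ (fun u => w (e u)) (e.symm v)
    simp only [Equiv.apply_symm_apply] at h
    simpa [ψ, rename_X] using h
  have hser : ser w (P.comap ψ) = ser (fun u => w (e u)) P := by
    funext d
    show (hilb w (P.comap ψ) d : ℤ) = (hilb (fun u => w (e u)) P d : ℤ)
    congr 1
    unfold hilb
    let L : weightedHomogeneousSubmodule ℂ w d ≃ₗ[ℂ]
        weightedHomogeneousSubmodule ℂ (fun u => w (e u)) d :=
      { toFun := fun x => ⟨ψ x.1, Cut.map_hom _ _ ψ hψh x.2⟩
        invFun := fun x => ⟨φ x.1, Cut.map_hom (fun u => w (e u)) w φ hφh x.2⟩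
        map_add' := fun x y => Subtype.ext (map_add ψ _ _)
        map_smul' := fun c x => Subtype.ext (map_smul ψ c _)
        left_inv := fun x => Subtype.ext (hφψ _)
        right_inv := fun x => Subtype.ext (hψφ _) }
    refine (Submodule.Quotient.equiv _ _ L ?_).finrank_eq
    ext x
    rw [Submodule.mem_map]
    constructor
    · rintro ⟨y, hy, rfl⟩
      exact hy
    · intro hx
      refine ⟨L.symm x, ?_, L.apply_symm_apply x⟩
      show ψ (φ x.1) ∈ P
      rw [hψφ]
      exact hx
  have hden : den w = den (fun u => w (e u)) := (Equiv.prod_comp e fun v => 1 - monomial (w v) 1).symm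
  have hk : kpoly w (P.comap ψ) = kpoly (fun u => w (e u)) P := by
    classical
    have hiff : IsK w (P.comap ψ) = IsK (fun u => w (e u)) P := by
      funext K
      unfold IsK
      rw [hser, hden]
    unfold kpoly
    simp only [hiff]
  have hcod : codim (P.comap ψ) = codim P := by
    show Fintype.card τ - Cut.tr (P.comap ψ) = Fintype.card σ - Cut.tr P
    rw [Cut.tr_comap ψ φ hψφ, Fintype.card_congr e]
  refine ⟨⟨Ideal.IsPrime.comap (f := ψ) (hK := hprime), Cut.isHom_comap _ _ ψ hψh hhom, ?_⟩, hcod⟩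
  rwa [cls, lowZ, kshift, hk, hcod]

end Vale.Agent.P199.K.Core
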